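import Vale.Agent.P146.H561.F2Glue

/-!
Plan R2, row F2: **the size line.** With the regularised normalizer `hh e A = 1 / (|A|² + e)²`,
`e = ε M²`, inside the weight, the row F2 gives `2 Im (W N) ≤ (1 + small) v R`, where
`R = Im (tr (Y C) |C|²)`: only the lower bracket (share of `|A|² ≤ 3/4 M²`), the good times and
the crude size of `|C|` are used, no upper bracket.
-/

open MeasureTheory ProbabilityTheory Finset Matrix

namespace Vale.Agent.P146.H561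

open Vale.Agent.P157.Lv Vale.Agent.P146.H425 Vale.Agent.P146.H325 Vale.Agent.P146.H332
  Vale.Agent.P146.H712 Vale.Agent.P146.R1 Vale.Agent.P146.R1C Vale.Agent.P146.H706
  Vale.Agent.P146.H191 Vale.Agent.P146.H522 Vale.Agent.P146.H633
  Vale.Agent.P146.H326.J1 Vale.Agent.P146.H499.Skew Vale.Agent.P146.H785.F2N

set_option linter.unusedSectionVars false

/-! ### numbers -/

/-- `f(t) = 1/(t²+e)²` is Lipschitz relative to itself -/
lemma inv_lip {e s t : ℝ} (he : 0 < e) (hs : 0 ≤ s) (ht : 0 ≤ t) :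
    |1 / (t ^ 2 + e) ^ 2 - 1 / (s ^ 2 + e) ^ 2| ≤
      1 / √e * |t - s| * (1 / (t ^ 2 + e) ^ 2 + 1 / (s ^ 2 + e) ^ 2) := by
  have hr : 0 < √e := Real.sqrt_pos.2 he
  obtain ⟨r, hr'⟩ : ∃ r, r = √e := ⟨_, rfl⟩
  have he2 : e = r ^ 2 := by rw [hr', Real.sq_sqrt he.le]
  rw [← hr'] at hr ⊢
  rw [he2]
  obtain ⟨p, hp⟩ : ∃ p, p = t ^ 2 + r ^ 2 := ⟨_, rfl⟩
  obtain ⟨q, hq⟩ : ∃ q, q = s ^ 2 + r ^ 2 := ⟨_, rfl⟩
  have hp0 : 0 < p := by rw [hp]; positivity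
  have hq0 : 0 < q := by rw [hq]; positivity
  rw [← hp, ← hq]
  have e1 : 1 / p ^ 2 - 1 / q ^ 2 = (s - t) * ((s + t) * (q + p)) / (p ^ 2 * q ^ 2) := by
    rw [div_sub_div _ _ (by positivity) (by positivity)]
    congr 1
    rw [hp, hq]
    ring
  have e2 : 1 / r * |t - s| * (1 / p ^ 2 + 1 / q ^ 2) =
      |t - s| * ((p ^ 2 + q ^ 2) / r) / (p ^ 2 * q ^ 2) := by
    field_simp
    ring
  rw [e1, e2, abs_div, abs_mul, abs_sub_comm s t, abs_of_nonneg (by positivity : 0 ≤ (s + t) * (q + p)),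
    abs_of_nonneg (by positivity : 0 ≤ p ^ 2 * q ^ 2)]
  refine div_le_div_of_nonneg_right ?_ (by positivity)
  refine mul_le_mul_of_nonneg_left ?_ (abs_nonneg _)
  rw [le_div_iff₀ hr]
  have h1 : 2 * (s * r) ≤ q := by rw [hq]; nlinarith [sq_nonneg (s - r)]
  have h2 : 2 * (t * r) ≤ p := by rw [hp]; nlinarith [sq_nonneg (t - r)]
  nlinarith [mul_le_mul_of_nonneg_right h1 (by positivity : 0 ≤ q + p),
    mul_le_mul_of_nonneg_right h2 (by positivity : 0 ≤ q + p), sq_nonneg (p - q)]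

/-- the left side: `1 ≤ (u/(u+ε))² + 4 ε + 4 (3/4 - u)₊`, `u = |A|²/M²` -/
lemma left_point {u ε : ℝ} (hu : 0 ≤ u) (hε : 0 < ε) :
    1 ≤ (u / (u + ε)) ^ 2 + 4 * ε + 4 * max 0 (3 / 4 - u) := by
  have hp : 0 < u + ε := by linarith
  rcases le_total (1 / 2) u with h | h
  · have h1 : 0 ≤ max 0 (3 / 4 - u) := le_max_left _ _
    have h2 : 1 - u / (u + ε) = ε / (u + ε) := by field_simp; ring
    have h3 : ε / (u + ε) ≤ 2 * ε := by
      rw [div_le_iff₀ hp]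
      nlinarith
    have h4 : 0 ≤ ε / (u + ε) := by positivity
    have h5 : u / (u + ε) = 1 - ε / (u + ε) := by linarith
    rw [h5]
    nlinarith [sq_nonneg (ε / (u + ε))]
  · have h1 : 3 / 4 - u ≤ max 0 (3 / 4 - u) := le_max_right _ _
    have h2 : 0 ≤ (u / (u + ε)) ^ 2 := sq_nonneg _
    linarith

/-- the right side: `a² c² / (a² + e)² ≤ (1-θ)⁻² + (c - a)² / (4 e θ²)` -/
lemma right_point {a c e θ : ℝ} (ha : 0 ≤ a) (hc : 0 ≤ c) (he : 0 < e) (hθ : 0 < θ)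
    (hθ1 : θ < 1) :
    a ^ 2 * c ^ 2 / (a ^ 2 + e) ^ 2 ≤ 1 / (1 - θ) ^ 2 + (c - a) ^ 2 / (4 * e * θ ^ 2) := by
  have hp : 0 < a ^ 2 + e := by positivity
  have hθ2 : 0 < 1 - θ := by linarith
  rcases le_total ((1 - θ) * c) a with h | h
  · have h1 : a ^ 2 * c ^ 2 / (a ^ 2 + e) ^ 2 ≤ 1 / (1 - θ) ^ 2 := by
      rw [div_le_div_iff₀ (by positivity) (by positivity)]
      have h2 : ((1 - θ) * c) ^ 2 ≤ a ^ 2 := pow_le_pow_left₀ (by positivity) h 2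
      calc a ^ 2 * c ^ 2 * (1 - θ) ^ 2 = a ^ 2 * ((1 - θ) * c) ^ 2 := by ring
        _ ≤ a ^ 2 * a ^ 2 := mul_le_mul_of_nonneg_left h2 (sq_nonneg a)
        _ ≤ (a ^ 2 + e) * (a ^ 2 + e) :=
            mul_le_mul (by linarith) (by linarith) (sq_nonneg a) hp.le
        _ = 1 * (a ^ 2 + e) ^ 2 := by ring
    have h2 : 0 ≤ (c - a) ^ 2 / (4 * e * θ ^ 2) := by positivity
    linarith
  · have h1 : (θ * c) ^ 2 ≤ (c - a) ^ 2 := pow_le_pow_left₀ (by positivity) (by nlinarith) 2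
    have h2 : a ^ 2 * c ^ 2 / (a ^ 2 + e) ^ 2 ≤ (c - a) ^ 2 / (4 * e * θ ^ 2) := by
      rw [div_le_div_iff₀ (by positivity) (by positivity)]
      have h3 : 4 * (a ^ 2 * e) ≤ (a ^ 2 + e) ^ 2 := by nlinarith [sq_nonneg (a ^ 2 - e)]
      calc a ^ 2 * c ^ 2 * (4 * e * θ ^ 2) = (θ * c) ^ 2 * (4 * (a ^ 2 * e)) := by ring
        _ ≤ (c - a) ^ 2 * (a ^ 2 + e) ^ 2 :=
            mul_le_mul h1 h3 (by positivity) (sq_nonneg _)
    have h4 : 0 ≤ 1 / (1 - θ) ^ 2 := by positivity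
    linarith

/-! ### matrices -/

section mat

variable {m : Type} [Fintype m] [DecidableEq m]

/-- the regularised normalizer -/
noncomputable def hh (e : ℝ) (A : Matrix m m ℝ) : ℝ := 1 / (fr A + e) ^ 2

/-- the penalty for a small matrix -/
noncomputable def gg (M : ℝ) (A : Matrix m m ℝ) : ℝ := 4 * max 0 (3 / 4 - fr A / M ^ 2)

lemma hh_nonneg (e : ℝ) (A : Matrix m m ℝ) : 0 ≤ hh e A := by unfold hh; positivity

lemma hh_le {e : ℝ} (he : 0 < e) (A : Matrix m m ℝ) : hh e A ≤ 1 / e ^ 2 := by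
  unfold hh
  have h1 := H332.fr_nonneg A
  exact one_div_le_one_div_of_le (by positivity) (pow_le_pow_left₀ he.le (by linarith) 2)

lemma gg_nonneg (M : ℝ) (A : Matrix m m ℝ) : 0 ≤ gg M A := by
  unfold gg
  have : 0 ≤ max 0 (3 / 4 - fr A / M ^ 2) := le_max_left _ _
  linarith

/-- the penalty is at most three times the indicator of `|A|² ≤ 3/4 M²` -/
lemma gg_le {M : ℝ} (hM : 0 < M) (A : Matrix m m ℝ) :
    gg M A ≤ 3 * (if fr A ≤ 3 / 4 * M ^ 2 then 1 else 0) := by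
  unfold gg
  have h1 := H332.fr_nonneg A
  have h2 : 0 ≤ fr A / M ^ 2 := by positivity
  split_ifs with h
  · have : max 0 (3 / 4 - fr A / M ^ 2) ≤ 3 / 4 := max_le (by norm_num) (by linarith)
    linarith
  · push Not at h
    have h3 : 3 / 4 < fr A / M ^ 2 := by rwa [lt_div_iff₀ (by positivity)]
    rw [max_eq_left (by linarith)]
    norm_num

lemma gg_le3 {M : ℝ} (A : Matrix m m ℝ) : gg M A ≤ 3 := by
  unfold gg
  have h1 := H332.fr_nonneg A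
  have h2 : 0 ≤ fr A / M ^ 2 := by positivity
  have : max 0 (3 / 4 - fr A / M ^ 2) ≤ 3 / 4 := max_le (by norm_num) (by linarith)
  linarith

lemma nf_sub_le (A B : Matrix m m ℝ) : |nf A - nf B| ≤ nf (A - B) := by
  have key : ∀ A B : Matrix m m ℝ, nf A - nf B ≤ nf (A - B) := fun A B => by
    have h1 : nf A ^ 2 ≤ (nf (A - B) + nf B) ^ 2 := by
      have h2 : nf A ^ 2 = nf (A - B) ^ 2 + 2 * ip (A - B) B + nf B ^ 2 := by
        rw [nf_sq, nf_sq, nf_sq]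
        unfold fr ip
        simp only [Matrix.sub_apply, Finset.mul_sum, ← Finset.sum_add_distrib]
        exact Finset.sum_congr rfl fun i _ => Finset.sum_congr rfl fun j _ => by ring
      have h3 := (le_abs_self _).trans (ip_le_nf (A - B) B)
      rw [h2]
      nlinarith
    have h4 : nf A ≤ nf (A - B) + nf B :=
      (le_abs_self _).trans (abs_le_of_sq_le_sq h1 (add_nonneg (nf_nonneg _) (nf_nonneg _)))
    linarith
  rw [abs_sub_le_iff]
  refine ⟨key A B, ?_⟩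
  have h := key B A
  have e : nf (B - A) = nf (A - B) := by
    unfold nf
    congr 1
    unfold fr
    simp only [Matrix.sub_apply]
    exact Finset.sum_congr rfl fun i _ => Finset.sum_congr rfl fun j _ => by ring
  rwa [e] at h

/-- **the normalizer is Lipschitz relative to itself** -/
lemma hh_lip {e : ℝ} (he : 0 < e) (A B : Matrix m m ℝ) :
    |hh e A - hh e B| ≤ 1 / √e * nf (A - B) * (hh e A + hh e B) := by
  have h := inv_lip he (nf_nonneg B) (nf_nonneg A)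
  rw [nf_sq, nf_sq] at h
  refine h.trans ?_
  have h1 : 0 < √e := Real.sqrt_pos.2 he
  refine mul_le_mul_of_nonneg_right ?_ (add_nonneg (hh_nonneg e A) (hh_nonneg e B))
  exact mul_le_mul_of_nonneg_left (nf_sub_le A B) (by positivity)

lemma hh_left {M ε : ℝ} (hM : 0 < M) (hε : 0 < ε) (A : Matrix m m ℝ) :
    1 ≤ hh (ε * M ^ 2) A * nf A ^ 4 + 4 * ε + gg M A := by
  have h := left_point (u := fr A / M ^ 2) (div_nonneg (H332.fr_nonneg A) (by positivity)) hε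
  have e1 : hh (ε * M ^ 2) A * nf A ^ 4 = (fr A / M ^ 2 / (fr A / M ^ 2 + ε)) ^ 2 := by
    have e2 : nf A ^ 4 = fr A ^ 2 := by
      calc nf A ^ 4 = (nf A ^ 2) ^ 2 := by ring
        _ = _ := by rw [nf_sq]
    have h2 : 0 < fr A + ε * M ^ 2 := by
      have := H332.fr_nonneg A
      positivity
    unfold hh
    rw [e2]
    have e3 : fr A / M ^ 2 / (fr A / M ^ 2 + ε) = fr A / (fr A + ε * M ^ 2) := by
      have : fr A / M ^ 2 + ε = (fr A + ε * M ^ 2) / M ^ 2 := by field_simp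
      rw [this]
      field_simp
    rw [e3, div_pow]
    ring
  rw [e1]
  unfold gg
  exact h

lemma hh_right {M ε θ : ℝ} (hM : 0 < M) (hε : 0 < ε) (hθ : 0 < θ) (hθ1 : θ < 1)
    (A C : Matrix m m ℝ) :
    hh (ε * M ^ 2) A * (nf A * nf C ^ 2 * ip A C) ≤
      1 / (1 - θ) ^ 2 * nf C + 1 / (4 * ε * θ ^ 2 * M ^ 2) * (nf C * fr (C - A)) := by
  have h := right_point (nf_nonneg A) (nf_nonneg C) (show 0 < ε * M ^ 2 by positivity) hθ hθ1
  have h1 : ip A C ≤ nf A * nf C := (le_abs_self _).trans (ip_le_nf A C)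
  have h2 : nf A * nf C ^ 2 * ip A C ≤ nf A * nf C ^ 2 * (nf A * nf C) :=
    mul_le_mul_of_nonneg_left h1 (mul_nonneg (nf_nonneg A) (by positivity))
  have h3 := mul_le_mul_of_nonneg_left h2 (hh_nonneg (ε * M ^ 2) A)
  refine h3.trans ?_
  have e1 : hh (ε * M ^ 2) A * (nf A * nf C ^ 2 * (nf A * nf C)) =
      nf C * (nf A ^ 2 * nf C ^ 2 / (nf A ^ 2 + ε * M ^ 2) ^ 2) := by
    unfold hh
    rw [← nf_sq A]
    ring
  rw [e1]
  refine (mul_le_mul_of_nonneg_left h (nf_nonneg C)).trans ?_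
  have h4 : (nf C - nf A) ^ 2 ≤ fr (C - A) := by
    rw [← nf_sq, ← sq_abs]
    exact pow_le_pow_left₀ (abs_nonneg _) (nf_sub_le C A) 2
  have h5 : (nf C - nf A) ^ 2 / (4 * (ε * M ^ 2) * θ ^ 2) ≤
      1 / (4 * ε * θ ^ 2 * M ^ 2) * fr (C - A) := by
    rw [div_mul_eq_mul_div, one_mul]
    have e2 : 4 * (ε * M ^ 2) * θ ^ 2 = 4 * ε * θ ^ 2 * M ^ 2 := by ring
    rw [e2]
    exact div_le_div_of_nonneg_right h4 (by positivity)
  have h6 := mul_le_mul_of_nonneg_left h5 (nf_nonneg C)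
  rw [mul_add]
  have e3 : nf C * (1 / (4 * ε * θ ^ 2 * M ^ 2) * fr (C - A)) =
      1 / (4 * ε * θ ^ 2 * M ^ 2) * (nf C * fr (C - A)) := by ring
  rw [e3] at h6
  have e4 : nf C * (1 / (1 - θ) ^ 2) = 1 / (1 - θ) ^ 2 * nf C := by ring
  rw [e4]
  linarith

end mat

/-! ### the size line -/

section size

variable {n : ℕ} {φ : (K4 (Pair n) → ℝ) → ℝ}

lemma eg_hh {e : ℝ} (he : 0 < e) {A : (K4 (Pair n) → ℝ) → Matrix (Fin n) (Fin n) ℝ}
    (hA : ∀ i j, EG fun w => A w i j) : EG fun w => hh e (A w) := by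
  refine EG.of_bdd (C := 1 / e ^ 2) ?_ fun w => ?_
  · exact measurable_const.div (((eg_frm hA).meas.add measurable_const).pow_const 2)
  · rw [abs_of_nonneg (hh_nonneg e _)]
    exact hh_le he _

lemma eg_gg {M : ℝ} {A : (K4 (Pair n) → ℝ) → Matrix (Fin n) (Fin n) ℝ}
    (hA : ∀ i j, EG fun w => A w i j) : EG fun w => gg M (A w) := by
  refine EG.of_bdd (C := 3) ?_ fun w => ?_
  · exact (measurable_const.max (measurable_const.sub
      ((eg_frm hA).meas.div_const _))).const_mul 4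
  · rw [abs_of_nonneg (gg_nonneg M _)]
    exact gg_le3 _

/-- **The size line.** -/
theorem f2_size (h : EG φ) (h0 : ∀ w, 0 ≤ φ w)
    {A C : (K4 (Pair n) → ℝ) → Matrix (Fin n) (Fin n) ℝ}
    (hA : ∀ i j, EG fun w => A w i j) (hC : ∀ i j, EG fun w => C w i j)
    {W W2 T Rr N : (K4 (Pair n) → ℝ) → ℝ} (eW : EG W) (eW2 : EG W2) (eT : EG T) (eR : EG Rr)
    (eN : EG N) (W0 : ∀ w, 0 ≤ W w) (N0 : ∀ w, 0 ≤ N w)
    {M ε θ v Err : ℝ} (hM : 0 < M) (hε : 0 < ε) (hθ : 0 < θ) (hθ1 : θ < 1) (hv : 0 ≤ v)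
    (hF : 2 * Im φ (fun w => (W w * hh (ε * M ^ 2) (A w)) * N w * nf (A w) ^ 4) ≤
      v * Im φ (fun w => (W w * hh (ε * M ^ 2) (A w)) *
        (nf (A w) * nf (C w) ^ 2 * ip (A w) (C w))) + Err)
    (hW2 : ∀ w, W w ≤ (1 + θ) * W2 w + (1 + 1 / θ) * T w)
    (hRr : ∀ w, W2 w * nf (C w) ≤ Rr w) :
    2 * (1 - 4 * ε) * Im φ (fun w => W w * N w) ≤
      v / (1 - θ) ^ 2 * ((1 + θ) * Im φ Rr + (1 + 1 / θ) * Im φ (fun w => T w * nf (C w))) +
      v / (4 * ε * θ ^ 2 * M ^ 2) * Im φ (fun w => W w * (nf (C w) * fr (C w - A w))) +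
      2 * Im φ (fun w => W w * gg M (A w) * N w) + Err := by
  have e1 := eg_nf hA
  have e2 := eg_nf hC
  have eh := eg_hh (e := ε * M ^ 2) (by positivity) hA
  have eg := eg_gg (M := M) hA
  have ei := eg_ip hA hC
  have eD : EG fun w => fr (C w - A w) := eg_frm (A := fun w => C w - A w) fun i j => by
    simpa only [Matrix.sub_apply] using (hC i j).sub (hA i j)
  have eWN := eW.mul eN
  -- the left side
  have f1 : EG fun w => (W w * hh (ε * M ^ 2) (A w)) * N w * nf (A w) ^ 4 :=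
    ((eW.mul eh).mul eN).mul (e1.pow 4)
  have f2 : EG fun w => W w * gg M (A w) * N w := (eW.mul eg).mul eN
  have s1 : Im φ (fun w => W w * N w) ≤ Im φ (fun w =>
      ((W w * hh (ε * M ^ 2) (A w)) * N w * nf (A w) ^ 4 + 4 * ε * (W w * N w)) +
        W w * gg M (A w) * N w) := by
    refine Im_mono' h h0 eWN ((f1.add (eWN.const_mul _)).add f2) fun w => ?_
    have h3 := mul_le_mul_of_nonneg_left (hh_left hM hε (A w)) (mul_nonneg (W0 w) (N0 w))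
    nlinarith
  rw [Im_add h (f1.add (eWN.const_mul _)) f2, Im_add h f1 (eWN.const_mul _),
    Im_const_mul] at s1
  -- the right side
  have g1 : EG fun w => (W w * hh (ε * M ^ 2) (A w)) *
      (nf (A w) * nf (C w) ^ 2 * ip (A w) (C w)) :=
    (eW.mul eh).mul ((e1.mul (e2.pow 2)).mul ei)
  have g2 : EG fun w => W w * nf (C w) := eW.mul e2
  have g3 : EG fun w => W w * (nf (C w) * fr (C w - A w)) := eW.mul (e2.mul eD)
  have s2 : Im φ (fun w => (W w * hh (ε * M ^ 2) (A w)) *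
      (nf (A w) * nf (C w) ^ 2 * ip (A w) (C w))) ≤
      Im φ (fun w => 1 / (1 - θ) ^ 2 * (W w * nf (C w)) +
        1 / (4 * ε * θ ^ 2 * M ^ 2) * (W w * (nf (C w) * fr (C w - A w)))) := by
    refine Im_mono' h h0 g1 ((g2.const_mul _).add (g3.const_mul _)) fun w => ?_
    have h3 := mul_le_mul_of_nonneg_left (hh_right hM hε hθ hθ1 (A w) (C w)) (W0 w)
    nlinarith
  rw [Im_add h (g2.const_mul _) (g3.const_mul _), Im_const_mul, Im_const_mul] at s2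
  have g4 : EG fun w => T w * nf (C w) := eT.mul e2
  have s3 : Im φ (fun w => W w * nf (C w)) ≤
      Im φ (fun w => (1 + θ) * Rr w + (1 + 1 / θ) * (T w * nf (C w))) := by
    refine Im_mono' h h0 g2 ((eR.const_mul _).add (g4.const_mul _)) fun w => ?_
    have h3 := mul_le_mul_of_nonneg_right (hW2 w) (nf_nonneg (C w))
    have h4 := mul_le_mul_of_nonneg_left (hRr w) (show (0 : ℝ) ≤ 1 + θ by linarith)
    nlinarith
  rw [Im_add h (eR.const_mul _) (g4.const_mul _), Im_const_mul, Im_const_mul] at s3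
  have s4 := mul_le_mul_of_nonneg_left s2 hv
  have s5 : v * (1 / (1 - θ) ^ 2 * Im φ (fun w => W w * nf (C w))) ≤
      v * (1 / (1 - θ) ^ 2 * ((1 + θ) * Im φ Rr +
        (1 + 1 / θ) * Im φ (fun w => T w * nf (C w)))) :=
    mul_le_mul_of_nonneg_left (mul_le_mul_of_nonneg_left s3 (by positivity)) hv
  have e3 : v / (1 - θ) ^ 2 * ((1 + θ) * Im φ Rr + (1 + 1 / θ) *
      Im φ (fun w => T w * nf (C w))) = v * (1 / (1 - θ) ^ 2 * ((1 + θ) * Im φ Rr +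
        (1 + 1 / θ) * Im φ (fun w => T w * nf (C w)))) := by ring
  have e4 : v / (4 * ε * θ ^ 2 * M ^ 2) * Im φ (fun w => W w * (nf (C w) * fr (C w - A w))) =
      v * (1 / (4 * ε * θ ^ 2 * M ^ 2) *
        Im φ (fun w => W w * (nf (C w) * fr (C w - A w)))) := by ring
  rw [e3, e4]
  nlinarith

/-- **The size line with the numbers**: KAP at the weight `W · gg`, the lower share `δ1`, the
good times `δ2`, the size `Z M` of `|C|`. -/
theorem f2_size_num (h : EG φ) (h0 : ∀ w, 0 ≤ φ w)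
    {A C : (K4 (Pair n) → ℝ) → Matrix (Fin n) (Fin n) ℝ}
    (hA : ∀ i j, EG fun w => A w i j) (hC : ∀ i j, EG fun w => C w i j)
    {W W2 T Rr N : (K4 (Pair n) → ℝ) → ℝ} (eW : EG W) (eW2 : EG W2) (eT : EG T) (eR : EG Rr)
    (eN : EG N) (W0 : ∀ w, 0 ≤ W w) (N0 : ∀ w, 0 ≤ N w)
    {M v Err K0 δ1 δ2 Z eK e1 e2 : ℝ} (hM : 0 < M) (hv : 0 ≤ v) (hK0 : 0 ≤ K0) (hZ : 0 ≤ Z)
    (hErr : 0 ≤ Err) (heK : 0 ≤ eK) (he1 : 0 ≤ e1) (he2 : 0 ≤ e2)
    (hF : 2 * Im φ (fun w => (W w * hh (1 / 200 * M ^ 2) (A w)) * N w * nf (A w) ^ 4) ≤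
      v * Im φ (fun w => (W w * hh (1 / 200 * M ^ 2) (A w)) *
        (nf (A w) * nf (C w) ^ 2 * ip (A w) (C w))) + Err)
    (hW2 : ∀ w, W w ≤ (1 + 1 / 200) * W2 w + 201 * T w)
    (hRr : ∀ w, W2 w * nf (C w) ≤ Rr w)
    (hK : Im φ (fun w => W w * gg M (A w) * N w) ≤ K0 * Im φ (fun w => W w * gg M (A w)) + eK)
    (hlow : Im φ (fun w => W w * gg M (A w)) ≤ δ1 * Im φ W)
    (hT : Im φ (fun w => T w * nf (C w)) ≤ Z * M * Im φ T + e1) (hT2 : Im φ T ≤ δ2 * Im φ W)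
    (hD : Im φ (fun w => W w * (nf (C w) * fr (C w - A w))) ≤
      Z * M * Im φ (fun w => W w * fr (C w - A w)) + M ^ 2 * e2)
    (hD2 : Im φ (fun w => W w * fr (C w - A w)) ≤ δ2 * M ^ 2 * Im φ W)
    (hR : 1 / 2 * (M * Im φ W) ≤ Im φ Rr)
    (hδ1 : K0 * δ1 ≤ 1 / 10 ^ 6 * (v * M)) (hδ2 : Z * δ2 ≤ 1 / 10 ^ 12) :
    2 * Im φ (fun w => W w * N w) ≤
      21 / 20 * (v * Im φ Rr) + 11 / 10 * Err + 3 * eK + 10 ^ 7 * v * (e1 + e2) := by
  have key := f2_size (ε := 1 / 200) (θ := 1 / 200) h h0 hA hC eW eW2 eT eR eN W0 N0 hM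
    (by norm_num) (by norm_num) (by norm_num) hv hF (fun w => by
      have := hW2 w
      norm_num at this ⊢
      linarith) hRr
  obtain ⟨X, hX⟩ : ∃ X, X = Im φ (fun w => W w * N w) := ⟨_, rfl⟩
  obtain ⟨R, hR'⟩ : ∃ X, X = Im φ Rr := ⟨_, rfl⟩
  obtain ⟨a1, ha1⟩ : ∃ X, X = Im φ (fun w => T w * nf (C w)) := ⟨_, rfl⟩
  obtain ⟨a2, ha2⟩ : ∃ X, X = Im φ (fun w => W w * (nf (C w) * fr (C w - A w))) := ⟨_, rfl⟩
  obtain ⟨a3, ha3⟩ : ∃ X, X = Im φ (fun w => W w * gg M (A w) * N w) := ⟨_, rfl⟩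
  obtain ⟨a4, ha4⟩ : ∃ X, X = Im φ (fun w => W w * gg M (A w)) := ⟨_, rfl⟩
  obtain ⟨a5, ha5⟩ : ∃ X, X = Im φ T := ⟨_, rfl⟩
  obtain ⟨a6, ha6⟩ : ∃ X, X = Im φ (fun w => W w * fr (C w - A w)) := ⟨_, rfl⟩
  obtain ⟨P, hP⟩ : ∃ X, X = Im φ W := ⟨_, rfl⟩
  rw [← hX, ← hR', ← ha1, ← ha2, ← ha3] at key
  rw [← ha3, ← ha4] at hK
  rw [← ha4, ← hP] at hlow
  rw [← ha1, ← ha5] at hT
  rw [← ha5, ← hP] at hT2
  rw [← ha2, ← ha6] at hD
  rw [← ha6, ← hP] at hD2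
  rw [← hP, ← hR'] at hR
  rw [← hX, ← hR']
  have hP0 : 0 ≤ P := by rw [hP]; exact Im_nonneg' h0 W0
  have hX0 : 0 ≤ X := by rw [hX]; exact Im_nonneg' h0 fun w => mul_nonneg (W0 w) (N0 w)
  have hZM : 0 ≤ Z * M := mul_nonneg hZ hM.le
  -- the three numbers
  have b1 : a1 ≤ 1 / 10 ^ 12 * (M * P) + e1 := by
    have h1 : Z * M * a5 ≤ Z * M * (δ2 * P) := mul_le_mul_of_nonneg_left hT2 hZM
    have h2 : Z * δ2 * (M * P) ≤ 1 / 10 ^ 12 * (M * P) :=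
      mul_le_mul_of_nonneg_right hδ2 (mul_nonneg hM.le hP0)
    have e : Z * M * (δ2 * P) = Z * δ2 * (M * P) := by ring
    rw [e] at h1
    linarith
  have b2 : a2 ≤ M ^ 2 * (1 / 10 ^ 12 * (M * P) + e2) := by
    have h1 : Z * M * a6 ≤ Z * M * (δ2 * M ^ 2 * P) := mul_le_mul_of_nonneg_left hD2 hZM
    have h2 : Z * δ2 * (M * P) * M ^ 2 ≤ 1 / 10 ^ 12 * (M * P) * M ^ 2 :=
      mul_le_mul_of_nonneg_right (mul_le_mul_of_nonneg_right hδ2 (mul_nonneg hM.le hP0))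
        (by positivity)
    have e : Z * M * (δ2 * M ^ 2 * P) = Z * δ2 * (M * P) * M ^ 2 := by ring
    rw [e] at h1
    linarith
  have b3 : a3 ≤ 1 / 10 ^ 6 * (v * (M * P)) + eK := by
    have h1 : K0 * a4 ≤ K0 * (δ1 * P) := mul_le_mul_of_nonneg_left hlow hK0
    have h2 : K0 * δ1 * P ≤ 1 / 10 ^ 6 * (v * M) * P := mul_le_mul_of_nonneg_right hδ1 hP0
    have e : K0 * (δ1 * P) = K0 * δ1 * P := by ring
    rw [e] at h1
    linarith
  have b4 : v / (4 * (1 / 200) * (1 / 200) ^ 2 * M ^ 2) * a2 ≤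
      2 * 10 ^ 6 * v * (1 / 10 ^ 12 * (M * P) + e2) := by
    have h1 : 0 ≤ v / (4 * (1 / 200) * (1 / 200) ^ 2 * M ^ 2) := by positivity
    refine (mul_le_mul_of_nonneg_left b2 h1).trans (le_of_eq ?_)
    field_simp
    ring
  have b5 : v / (1 - 1 / 200) ^ 2 * ((1 + 1 / 200) * R + (1 + 1 / (1 / 200)) * a1) ≤
      v * (40000 / 39601) * ((201 / 200) * R + 201 * (1 / 10 ^ 12 * (M * P) + e1)) := by
    have e : v / (1 - 1 / 200) ^ 2 * ((1 + 1 / 200) * R + (1 + 1 / (1 / 200)) * a1) =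
        v * (40000 / 39601) * ((201 / 200) * R + 201 * a1) := by
      ring
    rw [e]
    refine mul_le_mul_of_nonneg_left ?_ (by positivity)
    linarith
  have hMP : M * P ≤ 2 * R := by linarith
  have hvR : v * (M * P) ≤ 2 * (v * R) := by nlinarith
  have hk : 2 * (1 - 4 * (1 / 200)) * X ≤
      v * (40000 / 39601) * ((201 / 200) * R + 201 * (1 / 10 ^ 12 * (M * P) + e1)) +
      2 * 10 ^ 6 * v * (1 / 10 ^ 12 * (M * P) + e2) +
      2 * (1 / 10 ^ 6 * (v * (M * P)) + eK) + Err := by linarith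
  have c1 : 0 ≤ v * e1 := mul_nonneg hv he1
  have c2 : 0 ≤ v * e2 := mul_nonneg hv he2
  have hR0 : 0 ≤ v * R := by
    have : 0 ≤ v * (M * P) := by positivity
    linarith
  obtain ⟨y1, hy1⟩ : ∃ y, y = v * R := ⟨_, rfl⟩
  obtain ⟨y2, hy2⟩ : ∃ y, y = v * (M * P) := ⟨_, rfl⟩
  obtain ⟨y3, hy3⟩ : ∃ y, y = v * e1 := ⟨_, rfl⟩
  obtain ⟨y4, hy4⟩ : ∃ y, y = v * e2 := ⟨_, rfl⟩
  have f1 : v * (40000 / 39601) * ((201 / 200) * R + 201 * (1 / 10 ^ 12 * (M * P) + e1)) =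
      (40000 / 39601) * ((201 / 200) * y1 + 201 * (1 / 10 ^ 12 * y2 + y3)) := by
    rw [hy1, hy2, hy3]; ring
  have f2 : 2 * 10 ^ 6 * v * (1 / 10 ^ 12 * (M * P) + e2) =
      2 * 10 ^ 6 * (1 / 10 ^ 12 * y2 + y4) := by rw [hy2, hy4]; ring
  rw [f1, f2, ← hy2] at hk
  have f3 : 10 ^ 7 * v * (e1 + e2) = 10 ^ 7 * (y3 + y4) := by rw [hy3, hy4]; ring
  rw [f3, ← hy1]
  rw [← hy1, ← hy2] at hvR
  rw [← hy1] at hR0
  rw [← hy3] at c1
  rw [← hy4] at c2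
  linarith

end size

end Vale.Agent.P146.H561
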