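import Vale.Agent.P146.H350.F2Mat

/-!
Plan R2, row F2: **(F2*) with the coefficient `s1/s2` in front of the identity at the second
time**: no Hessian term and no `tr (M1² M2²)` term is left.
-/

open MeasureTheory ProbabilityTheory Finset

namespace Vale.Agent.P146.H561

open Vale.Agent.P157.Lv Vale.Agent.P146.H425 Vale.Agent.P146.H325 Vale.Agent.P146.H332
  Vale.Agent.P146.H712 Vale.Agent.P146.R1 Vale.Agent.P146.R1C Vale.Agent.P146.H706
  Vale.Agent.P146.R1S Vale.Agent.P146.H191 Vale.Agent.P146.H350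

set_option linter.unusedSectionVars false

variable {n : ℕ}

section sys

variable {k x : ℝ} {S : CS n k x} {s1 s2 β r : ℝ} {a1 a2 : Fin 4 → ℝ} {b : Fin n}
  {φ χ : (K4 (Pair n) → ℝ) → ℝ} {ψ' : K4 (Pair n) → (K4 (Pair n) → ℝ) → ℝ} {M1 M2 : MF n}

/-- **The left side**, row `b`. -/
noncomputable def n3row (S : CS n k x) (s1 s2 β r : ℝ) (a1 a2 : Fin 4 → ℝ)
    (ψ' : K4 (Pair n) → (K4 (Pair n) → ℝ) → ℝ) (b : Fin n) (χ : (K4 (Pair n) → ℝ) → ℝ)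
    (M1 M2 : MF n) (w : K4 (Pair n) → ℝ) : ℝ :=
  χ w * (dt (mv (M2 w) (Nv S s1 a1 β b M1 w)) (mv (M2 w) (Nv S s1 a1 β b M1 w)) +
    r * dt (mv (M1 w) (Nv S s2 a2 β b M2 w)) (mv (M1 w) (Nv S s2 a2 β b M2 w)) -
    2 * dt (mv (M1 w) (Nv S s1 a1 β b M1 w)) (mv (M2 w) (Nv S s2 a2 β b M2 w)) +
    k / β * (dt (mv (M2 w) (Nv S s1 a1 β b M1 w)) (mv (M2 w) (mv (M1 w) (dv a1 ψ' b w))) +
      r * dt (mv (M1 w) (Nv S s2 a2 β b M2 w)) (mv (M1 w) (mv (M2 w) (dv a2 ψ' b w))) -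
      2 * dt (mv (M1 w) (Nv S s1 a1 β b M1 w)) (mv (M2 w) (mv (M2 w) (dv a2 ψ' b w)))))

/-- **The right side**, row `b`. -/
noncomputable def m3row (S : CS n k x) (s1 s2 β r : ℝ) (a1 a2 : Fin 4 → ℝ)
    (ψ' : K4 (Pair n) → (K4 (Pair n) → ℝ) → ℝ) (b : Fin n) (χ : (K4 (Pair n) → ℝ) → ℝ)
    (M1 M2 : MF n) (w : K4 (Pair n) → ℝ) : ℝ :=
  χ w * (dt (mv (M2 w) (Uv S s1 a1 b w)) (mv (M2 w) (Uv S s1 a1 b w)) +
    r * dt (mv (M1 w) (Uv S s2 a2 b w)) (mv (M1 w) (Uv S s2 a2 b w)) -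
    2 * dt (mv (M1 w) (Uv S s1 a1 b w)) (mv (M2 w) (Uv S s2 a2 b w)) -
    k / β * (dt (mv (M2 w) (Uv S s1 a1 b w)) (mv (M2 w) (mv (M1 w) (dv a1 ψ' b w))) +
      r * dt (mv (M1 w) (Uv S s2 a2 b w)) (mv (M1 w) (mv (M2 w) (dv a2 ψ' b w))) -
      2 * dt (mv (M1 w) (mv (M1 w) (dv a1 ψ' b w))) (mv (M2 w) (Uv S s2 a2 b w))))

lemma Im_six' (h : EG φ) {f1 f2 f3 g1 g2 g3 : (K4 (Pair n) → ℝ) → ℝ} (c r : ℝ) (hf1 : EG f1)
    (hf2 : EG f2) (hf3 : EG f3) (hg1 : EG g1) (hg2 : EG g2) (hg3 : EG g3) :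
    Im φ (fun w => f1 w + r * f2 w - 2 * f3 w + c * (g1 w + r * g2 w - 2 * g3 w)) =
      Im φ f1 + r * Im φ f2 - 2 * Im φ f3 + c * (Im φ g1 + r * Im φ g2 - 2 * Im φ g3) := by
  rw [Im_add h ((hf1.add (hf2.const_mul r)).sub (hf3.const_mul 2)) (((hg1.add (hg2.const_mul
    r)).sub (hg3.const_mul 2)).const_mul c), Im_const_mul, Im_sub h (hf1.add (hf2.const_mul r))
    (hf3.const_mul 2), Im_sub h (hg1.add (hg2.const_mul r)) (hg3.const_mul 2),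
    Im_add h hf1 (hf2.const_mul r), Im_add h hg1 (hg2.const_mul r), Im_const_mul, Im_const_mul,
    Im_const_mul, Im_const_mul]

/-- **(F2*) with the coefficient `s1/s2`, row `b`.** -/
theorem f2_krow (hs1 : 0 < s1) (hs2 : 0 < s2) (hv : 0 < vr a2) (hc : cv a1 a2 = vr a1)
    (h : Den φ ψ')
    (hχ : EG χ) (hχb : Fr b χ) (hM1 : Frz b M1) (hM2 : Frz b M2)
    (h1b : ∀ w i, M1 w i b = 0) (h2b : ∀ w i, M2 w i b = 0) :
    Im φ (n3row S s1 s2 β (vr a1 / vr a2) a1 a2 ψ' b χ M1 M2) =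
      Im φ (m3row S s1 s2 β (vr a1 / vr a2) a1 a2 ψ' b χ M1 M2) := by
  have fM1 : Fz b M1 := Fz.of b hM1
  have fM2 : Fz b M2 := Fz.of b hM2
  have fL : ∀ {M : MF n}, Fz b M → Fz b (fun w i l => M w i l / β) := by
    intro M hM
    have e : ∀ i l, (fun w => M w i l / β) = fun w => 1 / β * M w i l := fun i l =>
      funext fun w => by ring
    refine ⟨fun i l => ?_, fun i l => ?_⟩
    · show EG fun w => M w i l / β
      rw [e]
      exact (hM.eg i l).const_mul _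
    · show Fr b fun w => M w i l / β
      rw [e]
      exact (hM.fr i l).const_mul _
  have fL1 := fL fM1
  have fL2 := fL fM2
  have fZ11 : Fz b (cm χ (mm M2 M2)) := Fz.cm hχ hχb (fM2.mm fM2)
  have fZ22 : Fz b (cm χ (mm M1 M1)) := Fz.cm hχ hχb (fM1.mm fM1)
  have fZ12 : Fz b (cm χ (mm M1 M2)) := Fz.cm hχ hχb (fM1.mm fM2)
  have k11 := bil_row (a := a1) (a' := a1) (k := k) (U := Uz S s1 b) (U' := Uz S s1 b)
    (H := fun z i l => S.H s1 b z i l) (H' := fun z i l => S.H s1 b z i l) h fZ11 fL1 fL1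
    (eg_Uz S s1 b) (eg_Uz S s1 b) (fun i l => S.eg_H hs1 b i l) (fun i l => S.eg_H hs1 b i l)
    (fun i e he => pd_Uz S hs1 b i he) (fun i e he => pd_Uz S hs1 b i he)
  have k22 := bil_row (a := a2) (a' := a2) (k := k) (U := Uz S s2 b) (U' := Uz S s2 b)
    (H := fun z i l => S.H s2 b z i l) (H' := fun z i l => S.H s2 b z i l) h fZ22 fL2 fL2
    (eg_Uz S s2 b) (eg_Uz S s2 b) (fun i l => S.eg_H hs2 b i l) (fun i l => S.eg_H hs2 b i l)
    (fun i e he => pd_Uz S hs2 b i he) (fun i e he => pd_Uz S hs2 b i he)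
  have k12 := bil_row (a := a1) (a' := a2) (k := k) (U := Uz S s1 b) (U' := Uz S s2 b)
    (H := fun z i l => S.H s1 b z i l) (H' := fun z i l => S.H s2 b z i l) h fZ12 fL1 fL2
    (eg_Uz S s1 b) (eg_Uz S s2 b) (fun i l => S.eg_H hs1 b i l) (fun i l => S.eg_H hs2 b i l)
    (fun i e he => pd_Uz S hs1 b i he) (fun i e he => pd_Uz S hs2 b i he)
  -- the traces
  set τ : (K4 (Pair n) → ℝ) → ℝ := fun w =>
    χ w / β * t4 (M2 w) (M2 w) (M1 w) (S.H s1 b (H712.lp a1 w)) with hτ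
  set T : (K4 (Pair n) → ℝ) → ℝ := fun w =>
    χ w / β * t4 (M1 w) (M1 w) (M2 w) (S.H s2 b (H712.lp a2 w)) with hT
  set R : (K4 (Pair n) → ℝ) → ℝ := fun w =>
    χ w / β ^ 2 * t4 (M1 w) (M1 w) (M2 w) (M2 w) with hR
  have sH1 : ∀ w i l, S.H s1 b (H712.lp a1 w) i l = S.H s1 b (H712.lp a1 w) l i := fun w i l =>
    S.H_comm s1 b _ i l
  have sH2 : ∀ w i l, S.H s2 b (H712.lp a2 w) i l = S.H s2 b (H712.lp a2 w) l i := fun w i l =>
    S.H_comm s2 b _ i l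
  have s1' := hM1.sy
  have s2' := hM2.sy
  have A11 : Im φ (fun w => ∑ i, ∑ l, cm χ (mm M2 M2) w i l *
      ∑ e ∈ row b, (M1 w l (oth b e) / β) * S.H s1 b (H712.lp a1 w) i (oth b e)) = Im φ τ :=
    Im_congr fun w => tr_a M2 M2 M1 _ h1b w
  have B11 : Im φ (fun w => ∑ i, ∑ l, cm χ (mm M2 M2) w i l *
      ∑ e ∈ row b, (M1 w i (oth b e) / β) * S.H s1 b (H712.lp a1 w) l (oth b e)) = Im φ τ :=
    Im_congr fun w => tr_b M2 M2 M1 s2' s2' _ h1b w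
  have C11 : Im φ (fun w => ∑ i, ∑ l, cm χ (mm M2 M2) w i l *
      ∑ e ∈ row b, (M1 w i (oth b e) / β) * (M1 w l (oth b e) / β)) = Im φ R :=
    Im_congr fun w => by
      rw [tr_c M2 M2 M1 M1 h1b w, (t4_cyc (s1' w) (s2' w)).1]
  have A22 : Im φ (fun w => ∑ i, ∑ l, cm χ (mm M1 M1) w i l *
      ∑ e ∈ row b, (M2 w l (oth b e) / β) * S.H s2 b (H712.lp a2 w) i (oth b e)) = Im φ T :=
    Im_congr fun w => tr_a M1 M1 M2 _ h2b w
  have B22 : Im φ (fun w => ∑ i, ∑ l, cm χ (mm M1 M1) w i l *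
      ∑ e ∈ row b, (M2 w i (oth b e) / β) * S.H s2 b (H712.lp a2 w) l (oth b e)) = Im φ T :=
    Im_congr fun w => tr_b M1 M1 M2 s1' s1' _ h2b w
  have C22 : Im φ (fun w => ∑ i, ∑ l, cm χ (mm M1 M1) w i l *
      ∑ e ∈ row b, (M2 w i (oth b e) / β) * (M2 w l (oth b e) / β)) = Im φ R :=
    Im_congr fun w => tr_c M1 M1 M2 M2 h2b w
  have A12 : Im φ (fun w => ∑ i, ∑ l, cm χ (mm M1 M2) w i l *
      ∑ e ∈ row b, (M2 w l (oth b e) / β) * S.H s1 b (H712.lp a1 w) i (oth b e)) = Im φ τ :=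
    Im_congr fun w => (tr_a M1 M2 M2 (S.H s1 b (H712.lp a1 w)) h2b w).trans (by
      rw [t4_rev (s1' w) (s2' w) (s2' w) (sH1 w)])
  have B12 : Im φ (fun w => ∑ i, ∑ l, cm χ (mm M1 M2) w i l *
      ∑ e ∈ row b, (M1 w i (oth b e) / β) * S.H s2 b (H712.lp a2 w) l (oth b e)) = Im φ T :=
    Im_congr fun w => (tr_b M1 M2 M1 s1' s2' (S.H s2 b (H712.lp a2 w)) h1b w).trans (by
      rw [t4_rev (s2' w) (s1' w) (s1' w) (sH2 w)])
  have C12 : Im φ (fun w => ∑ i, ∑ l, cm χ (mm M1 M2) w i l *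
      ∑ e ∈ row b, (M1 w i (oth b e) / β) * (M2 w l (oth b e) / β)) = Im φ R :=
    Im_congr fun w => by
      rw [tr_c M1 M2 M1 M2 h1b w, (t4_cyc (s1' w) (s2' w)).2]
  rw [A11, B11, C11] at k11
  rw [A22, B22, C22] at k22
  rw [A12, B12, C12] at k12
  rw [cv_self] at k11 k22
  rw [hc] at k12
  -- exponential growth
  have eU1 : ∀ i, EG fun w : K4 (Pair n) → ℝ => Uz S s1 b i (H712.lp a1 w) := fun i =>
    eg_lp a1 (eg_Uz S s1 b i)
  have eU2 : ∀ i, EG fun w : K4 (Pair n) → ℝ => Uz S s2 b i (H712.lp a2 w) := fun i =>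
    eg_lp a2 (eg_Uz S s2 b i)
  have eN1 : ∀ i, EG (Nr a1 k b (fun w i l => M1 w i l / β) (Uz S s1 b) i) := fun i =>
    (eU1 i).sub ((eg_Ly fL1.eg i).const_mul _)
  have eN2 : ∀ i, EG (Nr a2 k b (fun w i l => M2 w i l / β) (Uz S s2 b) i) := fun i =>
    (eU2 i).sub ((eg_Ly fL2.eg i).const_mul _)
  have eV1 : ∀ i, EG (LV a1 b ψ' (fun w i l => M1 w i l / β) i) := fun i => eg_LV h fL1.eg i
  have eV2 : ∀ i, EG (LV a2 b ψ' (fun w i l => M2 w i l / β) i) := fun i => eg_LV h fL2.eg i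
  have eH2 : ∀ i l, EG fun w : K4 (Pair n) → ℝ => S.H s2 b (H712.lp a2 w) i l := fun i l =>
    eg_lp a2 (S.eg_H hs2 b i l)
  have eT : EG T := by
    have e : T = fun w => 1 / β * (χ w * ∑ i, ∑ l, (∑ p, M1 w i p * M1 w p l) *
        ∑ j, M2 w l j * S.H s2 b (H712.lp a2 w) i j) := by
      funext w
      simp only [hT, t4]
      ring
    rw [e]
    exact (hχ.mul (EG.sum _ fun i _ => EG.sum _ fun l _ =>
      (EG.sum _ fun p _ => (hM1.eg i p).mul (hM1.eg p l)).mul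
        (EG.sum _ fun j _ => (hM2.eg l j).mul (eH2 i j)))).const_mul _
  have eR : EG R := by
    have e : R = fun w => 1 / β ^ 2 * (χ w * ∑ i, ∑ l, (∑ p, M1 w i p * M1 w p l) *
        ∑ j, M2 w l j * M2 w i j) := by
      funext w
      simp only [hR, t4]
      ring
    rw [e]
    exact (hχ.mul (EG.sum _ fun i _ => EG.sum _ fun l _ =>
      (EG.sum _ fun p _ => (hM1.eg i p).mul (hM1.eg p l)).mul
        (EG.sum _ fun j _ => (hM2.eg l j).mul (hM2.eg i j)))).const_mul _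
  have dLV1 : ∀ (w : K4 (Pair n) → ℝ), (fun i => LV a1 b ψ' (fun w i l => M1 w i l / β) i w) =
      fun i => 1 / β * mv (M1 w) (dv a1 ψ' b w) i := fun w => funext fun i =>
    LV_mv a1 i w
  have dLV2 : ∀ (w : K4 (Pair n) → ℝ), (fun i => LV a2 b ψ' (fun w i l => M2 w i l / β) i w) =
      fun i => 1 / β * mv (M2 w) (dv a2 ψ' b w) i := fun w => funext fun i =>
    LV_mv (M1 := M2) a2 i w
  obtain ⟨r, hr0⟩ : ∃ r, r = vr a1 / vr a2 := ⟨_, rfl⟩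
  have hr1 : r * vr a2 = vr a1 := by rw [hr0]; exact div_mul_cancel₀ _ hv.ne'
  rw [← hr0]
  -- the left side
  have hl : Im φ (n3row S s1 s2 β r a1 a2 ψ' b χ M1 M2) =
      Im φ (qY (cm χ (mm M2 M2)) (Nr a1 k b (fun w i l => M1 w i l / β) (Uz S s1 b))
        (Nr a1 k b (fun w i l => M1 w i l / β) (Uz S s1 b))) +
      r * Im φ (qY (cm χ (mm M1 M1)) (Nr a2 k b (fun w i l => M2 w i l / β) (Uz S s2 b))
        (Nr a2 k b (fun w i l => M2 w i l / β) (Uz S s2 b))) -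
      2 * Im φ (qY (cm χ (mm M1 M2)) (Nr a1 k b (fun w i l => M1 w i l / β) (Uz S s1 b))
        (Nr a2 k b (fun w i l => M2 w i l / β) (Uz S s2 b))) +
      k * (Im φ (qY (cm χ (mm M2 M2)) (Nr a1 k b (fun w i l => M1 w i l / β) (Uz S s1 b))
          (LV a1 b ψ' (fun w i l => M1 w i l / β))) +
        r * Im φ (qY (cm χ (mm M1 M1)) (Nr a2 k b (fun w i l => M2 w i l / β) (Uz S s2 b))
          (LV a2 b ψ' (fun w i l => M2 w i l / β))) -
        2 * Im φ (qY (cm χ (mm M1 M2)) (Nr a1 k b (fun w i l => M1 w i l / β) (Uz S s1 b))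
          (LV a2 b ψ' (fun w i l => M2 w i l / β)))) := by
    rw [← Im_six' h.eg k r (eg_qY fZ11.eg eN1 eN1) (eg_qY fZ22.eg eN2 eN2)
      (eg_qY fZ12.eg eN1 eN2)
      (eg_qY fZ11.eg eN1 eV1) (eg_qY fZ22.eg eN2 eV2) (eg_qY fZ12.eg eN1 eV2)]
    refine Im_congr fun w => ?_
    rw [qY_cm s2', qY_cm s1', qY_cm s1', qY_cm s2', qY_cm s1', qY_cm s1', dLV1 w, dLV2 w]
    simp only [mv_smul, dt_smul]
    unfold n3row Nv
    ring
  -- the right side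
  have hr : Im φ (m3row S s1 s2 β r a1 a2 ψ' b χ M1 M2) =
      Im φ (qY (cm χ (mm M2 M2)) (fun i w => Uz S s1 b i (H712.lp a1 w))
        (fun i w => Uz S s1 b i (H712.lp a1 w))) +
      r * Im φ (qY (cm χ (mm M1 M1)) (fun i w => Uz S s2 b i (H712.lp a2 w))
        (fun i w => Uz S s2 b i (H712.lp a2 w))) -
      2 * Im φ (qY (cm χ (mm M1 M2)) (fun i w => Uz S s1 b i (H712.lp a1 w))
        (fun i w => Uz S s2 b i (H712.lp a2 w))) +
      (-k) * (Im φ (qY (cm χ (mm M2 M2)) (LV a1 b ψ' (fun w i l => M1 w i l / β))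
          (fun i w => Uz S s1 b i (H712.lp a1 w))) +
        r * Im φ (qY (cm χ (mm M1 M1)) (LV a2 b ψ' (fun w i l => M2 w i l / β))
          (fun i w => Uz S s2 b i (H712.lp a2 w))) -
        2 * Im φ (qY (cm χ (mm M1 M2)) (LV a1 b ψ' (fun w i l => M1 w i l / β))
          (fun i w => Uz S s2 b i (H712.lp a2 w)))) := by
    have g1 := eg_qY fZ11.eg eU1 eU1
    have g2 := eg_qY fZ22.eg eU2 eU2
    have g3 := eg_qY fZ12.eg eU1 eU2
    have g4 := eg_qY fZ11.eg eV1 eU1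
    have g5 := eg_qY fZ22.eg eV2 eU2
    have g6 := eg_qY fZ12.eg eV1 eU2
    rw [← Im_six' h.eg (-k) r g1 g2 g3 g4 g5 g6]
    refine Im_congr fun w => ?_
    rw [qY_cm s2', qY_cm s1', qY_cm s1', qY_cm s2', qY_cm s1', qY_cm s1', dLV1 w, dLV2 w]
    simp only [mv_smul]
    rw [dt_comm (fun i => 1 / β * mv (M2 w) (mv (M1 w) (dv a1 ψ' b w)) i),
      dt_comm (fun i => 1 / β * mv (M1 w) (mv (M2 w) (dv a2 ψ' b w)) i),
      dt_comm (fun i => 1 / β * mv (M1 w) (mv (M1 w) (dv a1 ψ' b w)) i)]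
    simp only [dt_smul]
    rw [dt_comm _ (mv (M1 w) (mv (M1 w) (dv a1 ψ' b w)))]
    unfold m3row Uv
    ring
  rw [hl, hr]
  linear_combination k11 + r * k22 - 2 * k12 +
    (k ^ 2 * Im φ R - 2 * k ^ 2 * Im φ T) * hr1

end sys

end Vale.Agent.P146.H561
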