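import Vale.Agent.P146.H191.F1Ibp

/-!
Plan R2, row F2: **the growth disappears.** The two-time row is used with the pointwise weight
`χ = w / (1 - a + κ)`, where `a = ⟨C1, C2⟩ / (|C1| |C2|)`; the term `τ E χ ..` (from the ratio
`s1/s2`) absorbs the correction `κ/(1 - a + κ)`. Jensen's inequality gives the constant `2`.
-/

open MeasureTheory ProbabilityTheory Finset

namespace Vale.Agent.P146.H561

open Vale.Agent.P157.Lv Vale.Agent.P146.H425 Vale.Agent.P146.H325 Vale.Agent.P146.H332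
  Vale.Agent.P146.H712 Vale.Agent.P146.R1 Vale.Agent.P146.R1C Vale.Agent.P146.H706
  Vale.Agent.P146.H191

set_option linter.unusedSectionVars false

section gen

variable {κ' : Type} [Fintype κ'] [DecidableEq κ'] {φ : (K4 κ' → ℝ) → ℝ}

lemma Im_mono' (h : EG φ) (h0 : ∀ w, 0 ≤ φ w) {f g : (K4 κ' → ℝ) → ℝ} (hf : EG f) (hg : EG g)
    (hfg : ∀ w, f w ≤ g w) : Im φ f ≤ Im φ g := by
  unfold Im
  exact integral_mono (h.mul hf).integrable (h.mul hg).integrable fun w =>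
    mul_le_mul_of_nonneg_left (hfg w) (h0 w)

lemma Im_nonneg' (h0 : ∀ w, 0 ≤ φ w) {f : (K4 κ' → ℝ) → ℝ} (hf : ∀ w, 0 ≤ f w) : 0 ≤ Im φ f :=
  integral_nonneg fun w => mul_nonneg (h0 w) (hf w)

/-- pointwise: `(1 + a) N ≤ G (1 - a²) N + τ G + κ N² / τ`, if `G (1 - a + κ) = 1` -/
lemma absorb_point {a N G κ τ : ℝ} (ha1 : a ≤ 1) (hN : 0 ≤ N) (hκ : 0 < κ)
    (hτ : 0 < τ) (hG : G * (1 - a + κ) = 1) :
    (1 + a) * N ≤ G * (1 - a ^ 2) * N + τ * G + κ / τ * N ^ 2 := by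
  have hp : 0 < 1 - a + κ := by linarith
  have hG0 : 0 ≤ G := by
    by_contra h
    push Not at h
    nlinarith
  have hG1 : G * κ ≤ 1 := by nlinarith
  have e1 : (1 + a) * N = G * (1 - a ^ 2) * N + G * κ * ((1 + a) * N) := by
    linear_combination (-(1 + a) * N) * hG
  have e2 : κ * ((1 + a) * N) ≤ τ + (κ * N) ^ 2 / τ := by
    have h1 : κ * ((1 + a) * N) ≤ 2 * (κ * N) := by nlinarith [mul_nonneg hκ.le hN]
    have h2 : 2 * (κ * N) ≤ τ + (κ * N) ^ 2 / τ := by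
      have h3 : 0 ≤ (τ - κ * N) ^ 2 / τ := by positivity
      have h4 : (τ - κ * N) ^ 2 / τ = τ - 2 * (κ * N) + (κ * N) ^ 2 / τ := by
        field_simp
        ring
      linarith
    linarith
  have e3 : G * κ * ((1 + a) * N) ≤ τ * G + κ / τ * N ^ 2 := by
    have h1 : G * κ * ((1 + a) * N) ≤ G * (τ + (κ * N) ^ 2 / τ) := by
      rw [mul_assoc]
      exact mul_le_mul_of_nonneg_left e2 hG0
    have h2 : G * ((κ * N) ^ 2 / τ) ≤ κ / τ * N ^ 2 := by
      have h3 : G * ((κ * N) ^ 2 / τ) = (G * κ) * (κ / τ * N ^ 2) := by ring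
      rw [h3]
      have h4 : 0 ≤ κ / τ * N ^ 2 := by positivity
      nlinarith
    nlinarith
  linarith

/-- **Absorption.** From the two-time row with the weight `W G`, `G = 1 / (1 - a + κ)`, to the
row without the growth. -/
theorem f2_unweight (h : EG φ) (h0 : ∀ w, 0 ≤ φ w) {W a N G l : (K4 κ' → ℝ) → ℝ}
    {κ τ v E : ℝ} (hW : EG W) (hW0 : ∀ w, 0 ≤ W w) (ha : EG a) (ha0 : ∀ w, 0 ≤ a w)
    (ha1 : ∀ w, a w ≤ 1) (hN : EG N) (hN0 : ∀ w, 0 ≤ N w) (hGe : EG G) (hκ : 0 < κ)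
    (hτ : 0 < τ) (hG : ∀ w, G w * (1 - a w + κ) = 1) (hl : EG l) (hl0 : ∀ w, 0 ≤ l w)
    (hv : 0 ≤ v)
    (H : Im φ (fun w => W w * (a w * (G w * (1 - a w ^ 2) * N w))) +
      τ * Im φ (fun w => W w * (a w * G w)) ≤
      v * Im φ (fun w => W w * (a w * (G w * (1 - a w) * l w))) + E) :
    Im φ (fun w => W w * (a w * ((1 + a w) * N w))) ≤
      v * Im φ (fun w => W w * (a w * l w)) + E +
        κ / τ * Im φ (fun w => W w * (a w * N w ^ 2)) := by
  have e1 : EG fun w => 1 - a w ^ 2 := (EG.const 1).sub (by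
    simpa only [pow_two] using ha.mul ha)
  have e2 : EG fun w => N w ^ 2 := by simpa only [pow_two] using hN.mul hN
  have g1 : EG fun w => W w * (a w * (G w * (1 - a w ^ 2) * N w)) :=
    hW.mul (ha.mul ((hGe.mul e1).mul hN))
  have g2 : EG fun w => W w * (a w * G w) := hW.mul (ha.mul hGe)
  have g3 : EG fun w => W w * (a w * N w ^ 2) := hW.mul (ha.mul e2)
  have g4 : EG fun w => W w * (a w * ((1 + a w) * N w)) :=
    hW.mul (ha.mul (((EG.const 1).add ha).mul hN))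
  have g5 : EG fun w => W w * (a w * (G w * (1 - a w) * l w)) :=
    hW.mul (ha.mul ((hGe.mul ((EG.const 1).sub ha)).mul hl))
  have g6 : EG fun w => W w * (a w * l w) := hW.mul (ha.mul hl)
  have s1 : Im φ (fun w => W w * (a w * ((1 + a w) * N w))) ≤
      Im φ (fun w => W w * (a w * (G w * (1 - a w ^ 2) * N w)) + τ * (W w * (a w * G w)) +
        κ / τ * (W w * (a w * N w ^ 2))) := by
    refine Im_mono' h h0 g4 ((g1.add (g2.const_mul _)).add (g3.const_mul _)) fun w => ?_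
    have := absorb_point (ha1 w) (hN0 w) hκ hτ (hG w)
    have h5 := mul_le_mul_of_nonneg_left (mul_le_mul_of_nonneg_left this (ha0 w)) (hW0 w)
    linarith
  rw [Im_add h (g1.add (g2.const_mul _)) (g3.const_mul _), Im_add h g1 (g2.const_mul _),
    Im_const_mul, Im_const_mul] at s1
  have s2 : Im φ (fun w => W w * (a w * (G w * (1 - a w) * l w))) ≤
      Im φ (fun w => W w * (a w * l w)) := by
    refine Im_mono' h h0 g5 g6 fun w => ?_
    have hp : 0 < 1 - a w + κ := by linarith [ha1 w]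
    have hG0 : 0 ≤ G w := by
      by_contra hc
      push Not at hc
      nlinarith [hG w]
    have h6 : G w * (1 - a w) ≤ 1 := by nlinarith [hG w, mul_nonneg hG0 hκ.le]
    have h7 : G w * (1 - a w) * l w ≤ l w := by nlinarith [hl0 w]
    exact mul_le_mul_of_nonneg_left (mul_le_mul_of_nonneg_left h7 (ha0 w)) (hW0 w)
  have s3 := mul_le_mul_of_nonneg_left s2 hv
  linarith

/-- **Jensen**, in the form which uses only the martingale identity. -/
theorem f2_jensen (h : EG φ) (h0 : ∀ w, 0 ≤ φ w) {f p Q : (K4 κ' → ℝ) → ℝ} (hf : EG f)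
    (hf0 : ∀ w, 0 ≤ f w) (hp : EG p) (hQ : EG Q)
    (hm : Im φ (fun w => f w * Q w * p w) = Im φ (fun w => f w * Q w * Q w)) :
    Im φ (fun w => f w * Q w ^ 2) ≤ Im φ (fun w => f w * p w ^ 2) := by
  have e1 : EG fun w => f w * Q w * p w := (hf.mul hQ).mul hp
  have e2 : EG fun w => f w * Q w ^ 2 := hf.mul (by simpa only [pow_two] using hQ.mul hQ)
  have e3 : EG fun w => f w * p w ^ 2 := hf.mul (by simpa only [pow_two] using hp.mul hp)
  have s1 : Im φ (fun w => 2 * (f w * Q w * p w) - f w * Q w ^ 2) ≤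
      Im φ (fun w => f w * p w ^ 2) := by
    refine Im_mono' h h0 ((e1.const_mul 2).sub e2) e3 fun w => ?_
    nlinarith [mul_nonneg (hf0 w) (sq_nonneg (p w - Q w))]
  rw [Im_sub h (e1.const_mul 2) e2, Im_const_mul, hm] at s1
  have e4 : Im φ (fun w => f w * Q w * Q w) = Im φ (fun w => f w * Q w ^ 2) :=
    Im_congr fun w => by ring
  rw [e4] at s1
  linarith

/-- **The row F2 without the growth.** `q1 = |C1|`, `q2 = |C2|`, `ip = ⟨C1, C2⟩`,
`a = ip / (q1 q2)`, `w1` and `N` functions of the first position (this is used only through the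
martingale identity `hm`). -/
theorem f2_alg (h : EG φ) (h0 : ∀ w, 0 ≤ φ w) {w1 q1 q2 ip a N G : (K4 κ' → ℝ) → ℝ}
    {κ τ v E : ℝ} (hw : EG w1) (hw0 : ∀ w, 0 ≤ w1 w) (h1 : EG q1) (h10 : ∀ w, 0 < q1 w)
    (h2 : EG q2) (h20 : ∀ w, 0 < q2 w) (hi : EG ip) (hi0 : ∀ w, 0 ≤ ip w)
    (hi1 : ∀ w, ip w ≤ q1 w * q2 w) (ha : EG a) (haq : ∀ w, a w * (q1 w * q2 w) = ip w)
    (hN : EG N) (hN0 : ∀ w, 0 ≤ N w) (hGe : EG G) (hκ : 0 < κ) (hτ : 0 < τ)
    (hG : ∀ w, G w * (1 - a w + κ) = 1) (hv : 0 ≤ v)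
    (hm : Im φ (fun w => w1 w * N w * q1 w ^ 2 * ip w) =
      Im φ (fun w => w1 w * N w * q1 w ^ 2 * q1 w ^ 2))
    (H : Im φ (fun w => w1 w * (q1 w ^ 2 * q2 w ^ 2) * (a w * (G w * (1 - a w ^ 2) * N w))) +
      τ * Im φ (fun w => w1 w * (q1 w ^ 2 * q2 w ^ 2) * (a w * G w)) ≤
      v * Im φ (fun w => w1 w * (q1 w ^ 2 * q2 w ^ 2) * (a w * (G w * (1 - a w) * q2 w))) + E) :
    2 * Im φ (fun w => w1 w * N w * q1 w ^ 4) ≤
      v * Im φ (fun w => w1 w * (q1 w * q2 w ^ 2 * ip w)) + E +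
        κ / τ * Im φ (fun w => w1 w * (q1 w * q2 w * ip w * N w ^ 2)) := by
  have e1 : EG fun w => q1 w ^ 2 := by simpa only [pow_two] using h1.mul h1
  have e2 : EG fun w => q2 w ^ 2 := by simpa only [pow_two] using h2.mul h2
  have hW : EG fun w => w1 w * (q1 w ^ 2 * q2 w ^ 2) := hw.mul (e1.mul e2)
  have hW0 : ∀ w, 0 ≤ w1 w * (q1 w ^ 2 * q2 w ^ 2) := fun w => by
    have := hw0 w
    positivity
  have hq : ∀ w, 0 < q1 w * q2 w := fun w => mul_pos (h10 w) (h20 w)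
  have ha0 : ∀ w, 0 ≤ a w := fun w => by
    by_contra hc
    push Not at hc
    have h3 := haq w
    nlinarith [hi0 w, hq w]
  have ha1 : ∀ w, a w ≤ 1 := fun w => by
    by_contra hc
    push Not at hc
    have h3 := haq w
    nlinarith [hi1 w, hq w]
  have key := f2_unweight h h0 hW hW0 ha ha0 ha1 hN hN0 hGe hκ hτ hG h2 (fun w => (h20 w).le)
    hv H
  have ew : EG fun w => w1 w * N w := hw.mul hN
  have hj := f2_jensen h h0 (f := fun w => w1 w * N w) (p := ip) (Q := fun w => q1 w ^ 2) ew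
    (fun w => mul_nonneg (hw0 w) (hN0 w)) hi e1 hm
  -- the left side
  have ei2 : EG fun w => ip w ^ 2 := by simpa only [pow_two] using hi.mul hi
  have s1 : 2 * Im φ (fun w => w1 w * N w * ip w ^ 2) ≤
      Im φ (fun w => w1 w * (q1 w ^ 2 * q2 w ^ 2) * (a w * ((1 + a w) * N w))) := by
    rw [← Im_const_mul]
    refine Im_mono' h h0 ((ew.mul ei2).const_mul 2)
      (hW.mul (ha.mul (((EG.const 1).add ha).mul hN))) fun w => ?_
    have h3 := haq w
    have h4 : ip w ^ 2 = (q1 w ^ 2 * q2 w ^ 2) * a w ^ 2 := by rw [← h3]; ring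
    have h5 : 0 ≤ w1 w * N w * (q1 w ^ 2 * q2 w ^ 2) :=
      mul_nonneg (mul_nonneg (hw0 w) (hN0 w)) (by positivity)
    have h6 : 2 * a w ^ 2 ≤ a w * (1 + a w) := by nlinarith [ha0 w, ha1 w]
    rw [h4]
    nlinarith [mul_le_mul_of_nonneg_left h6 h5]
  have s2 : Im φ (fun w => w1 w * (q1 w ^ 2 * q2 w ^ 2) * (a w * q2 w)) =
      Im φ (fun w => w1 w * (q1 w * q2 w ^ 2 * ip w)) :=
    Im_congr fun w => by rw [← haq w]; ring
  have s3 : Im φ (fun w => w1 w * (q1 w ^ 2 * q2 w ^ 2) * (a w * N w ^ 2)) =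
      Im φ (fun w => w1 w * (q1 w * q2 w * ip w * N w ^ 2)) :=
    Im_congr fun w => by rw [← haq w]; ring
  have s4 : Im φ (fun w => w1 w * N w * (q1 w ^ 2) ^ 2) =
      Im φ (fun w => w1 w * N w * q1 w ^ 4) := Im_congr fun w => by ring
  rw [s2, s3] at key
  rw [s4] at hj
  linarith

end gen

end Vale.Agent.P146.H561
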