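import Vale.Agent.P146.H561.F2Size

/-!
Plan R2, row F2: **the assembly in numbers.** `f2_glue` + `f2_size_num` with all defect terms
(`√dfc`), the diagonal term and the rare sets as numbers.
-/

open MeasureTheory ProbabilityTheory Finset Matrix

namespace Vale.Agent.P146.H561

open Vale.Agent.P157.Lv Vale.Agent.P146.H425 Vale.Agent.P146.H325 Vale.Agent.P146.H332
  Vale.Agent.P146.H712 Vale.Agent.P146.R1 Vale.Agent.P146.R1C Vale.Agent.P146.H706
  Vale.Agent.P146.H191 Vale.Agent.P146.H522 Vale.Agent.P146.H633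
  Vale.Agent.P146.H326.J1 Vale.Agent.P146.H499.Skew Vale.Agent.P146.H785.F2N

set_option linter.unusedSectionVars false
set_option linter.unusedVariables false

section mat

variable {m : Type} [Fintype m] [DecidableEq m]

/-- `|tr (A (A C))| ≤ |A|² |C|` -/
lemma tr_AAC_le {A C : Matrix m m ℝ} (hA : A.PosSemidef) :
    |(A * (A * C)).trace| ≤ nf A ^ 2 * nf C := by
  have e1 : (A * (A * C)).trace = ip (A * A) C := by
    have hs := sym_of hA
    rw [← Matrix.mul_assoc]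
    unfold ip
    simp only [Matrix.trace, Matrix.diag_apply, Matrix.mul_apply]
    rw [Finset.sum_comm]
    refine Finset.sum_congr rfl fun i _ => Finset.sum_congr rfl fun j _ => ?_
    congr 1
    refine Finset.sum_congr rfl fun l _ => ?_
    have h1 := congrFun (congrFun hs j) l
    have h2 := congrFun (congrFun hs l) i
    simp only [Matrix.transpose_apply] at h1 h2
    rw [← h1, ← h2]
    ring
  rw [e1]
  refine (ip_le_nf _ _).trans (mul_le_mul_of_nonneg_right ?_ (nf_nonneg C))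
  exact nf_sq_le (psd_of hA)

/-- `|A|² hh ≤ 1/(4e)` -/
lemma hh_fr {e : ℝ} (he : 0 < e) (A : Matrix m m ℝ) : hh e A * nf A ^ 2 ≤ 1 / (4 * e) := by
  have h0 := H332.fr_nonneg A
  unfold hh
  rw [nf_sq, one_div_mul_eq_div, div_le_div_iff₀ (by positivity) (by positivity)]
  nlinarith [sq_nonneg (fr A - e)]

end mat

section all

variable {n : ℕ} {φ : (K4 (Pair n) → ℝ) → ℝ}

/-- the indicator of the rare set of large matrices -/
noncomputable def bb (R : ℝ) (A C : Matrix (Fin n) (Fin n) ℝ) : ℝ :=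
  if nf A ≤ R ∧ nf C ≤ R then 0 else 1

lemma bb_nonneg (R : ℝ) (A C : Matrix (Fin n) (Fin n) ℝ) : 0 ≤ bb R A C := by
  unfold bb; split_ifs <;> norm_num

lemma bb_le (R : ℝ) (A C : Matrix (Fin n) (Fin n) ℝ) : bb R A C ≤ 1 := by
  unfold bb; split_ifs <;> norm_num

lemma eg_bb {R : ℝ} {A C : (K4 (Pair n) → ℝ) → Matrix (Fin n) (Fin n) ℝ}
    (hA : ∀ i j, EG fun w => A w i j) (hC : ∀ i j, EG fun w => C w i j) :
    EG fun w => bb R (A w) (C w) := by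
  refine EG.of_bdd (C := 1) ?_ fun w => ?_
  · exact Measurable.ite ((measurableSet_le (eg_nf hA).meas measurable_const).inter
      (measurableSet_le (eg_nf hC).meas measurable_const)) measurable_const measurable_const
  · rw [abs_of_nonneg (bb_nonneg R _ _)]
    exact bb_le R _ _

/-- bounds off a rare set -/
lemma Im_rare (h : EG φ) (h0 : ∀ w, 0 ≤ φ w) {f g b : (K4 (Pair n) → ℝ) → ℝ} (hf : EG f)
    (hg : EG g) (hb : EG b) {K η : ℝ} (hK : 0 ≤ K) (hfg : ∀ w, f w ≤ g w + K * b w)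
    (hη : Im φ b ≤ η) : Im φ f ≤ Im φ g + K * η := by
  have h1 := Im_mono' h h0 hf (hg.add (hb.const_mul K)) hfg
  rw [Im_add h hg (hb.const_mul K), Im_const_mul] at h1
  have h2 := mul_le_mul_of_nonneg_left hη hK
  linarith

/-- `Im (W √d) ≤ s M² Im W` if `Im (W d) ≤ s² M⁴ Im W` -/
lemma Im_sqrt_dfc (h : EG φ) (h0 : ∀ w, 0 ≤ φ w) {W d : (K4 (Pair n) → ℝ) → ℝ} (eW : EG W)
    (W0 : ∀ w, 0 ≤ W w) (ed : EG d) (ed' : EG fun w => √(d w)) {s M : ℝ} (hs : 0 < s)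
    (hM : 0 < M) (hd : ∀ w, 0 ≤ d w)
    (hI : Im φ (fun w => W w * d w) ≤ s ^ 2 * M ^ 4 * Im φ W) :
    Im φ (fun w => W w * √(d w)) ≤ s * M ^ 2 * Im φ W := by
  have h1 : Im φ (fun w => W w * √(d w)) ≤
      Im φ (fun w => 1 / (2 * s * M ^ 2) * (W w * d w) + s * M ^ 2 / 2 * W w) := by
    refine Im_mono' h h0 (eW.mul ed') (((eW.mul ed).const_mul _).add (eW.const_mul _))
      fun w => ?_
    obtain ⟨r, hr⟩ : ∃ r, r = √(d w) := ⟨_, rfl⟩
    have hr2 : d w = r ^ 2 := by rw [hr, Real.sq_sqrt (hd w)]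
    rw [← hr, hr2]
    have hp : 0 < s * M ^ 2 := by positivity
    have h2 : r ≤ 1 / (2 * s * M ^ 2) * r ^ 2 + s * M ^ 2 / 2 := by
      have e : 1 / (2 * s * M ^ 2) * r ^ 2 + s * M ^ 2 / 2 - r =
          (r - s * M ^ 2) ^ 2 / (2 * (s * M ^ 2)) := by
        field_simp
        ring
      have h3 : 0 ≤ (r - s * M ^ 2) ^ 2 / (2 * (s * M ^ 2)) := by positivity
      linarith
    have h4 := mul_le_mul_of_nonneg_left h2 (W0 w)
    linarith
  rw [Im_add h ((eW.mul ed).const_mul _) (eW.const_mul _), Im_const_mul, Im_const_mul] at h1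
  have h2 : 1 / (2 * s * M ^ 2) * Im φ (fun w => W w * d w) ≤
      1 / (2 * s * M ^ 2) * (s ^ 2 * M ^ 4 * Im φ W) :=
    mul_le_mul_of_nonneg_left hI (by positivity)
  have e : 1 / (2 * s * M ^ 2) * (s ^ 2 * M ^ 4 * Im φ W) = s * M ^ 2 / 2 * Im φ W := by
    field_simp
  rw [e] at h2
  linarith

/-- The data of the assembly: the matrices `A = C_{s1}`, `C = C_{s2}`, the weight
`W = tr (Y A²)`, `T = tr (Y (C - A)²)`; `M = n ρ`, `Z M` the size of the matrices off the rare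
set, `η` its probability, `δ3` the defect of the matrices. -/
structure F2Data (φ : (K4 (Pair n) → ℝ) → ℝ)
    (A C : (K4 (Pair n) → ℝ) → Matrix (Fin n) (Fin n) ℝ) (W T : (K4 (Pair n) → ℝ) → ℝ)
    (KW M Z η κ δ3 : ℝ) : Prop where
  hn : 0 < n
  h : EG φ
  h0 : ∀ w, 0 ≤ φ w
  hA : ∀ i j, EG fun w => A w i j
  hC : ∀ i j, EG fun w => C w i j
  pA : ∀ w, (A w).PosSemidef
  pC : ∀ w, (C w).PosSemidef
  bA : ∀ w, nf (A w) ≤ n
  bC : ∀ w, nf (C w) ≤ n
  eW : EG W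
  eT : EG T
  W0 : ∀ w, 0 ≤ W w
  T0 : ∀ w, 0 ≤ T w
  bW : ∀ w, W w ≤ KW
  bT : ∀ w, T w ≤ KW
  hM : 1 ≤ M
  hZ : 1 ≤ Z
  hη : 0 ≤ η
  hκ : 0 < κ
  hδ3 : 0 < δ3
  /-- the rare set -/
  hB : Im φ (fun w => bb (Z * M) (A w) (C w)) ≤ η
  /-- the defects -/
  hdA : Im φ (fun w => W w * dfc (A w)) ≤ δ3 ^ 2 * M ^ 4 * Im φ W
  hdC : Im φ (fun w => W w * dfc (C w)) ≤ δ3 ^ 2 * M ^ 4 * Im φ W

namespace F2Data

variable {A C : (K4 (Pair n) → ℝ) → Matrix (Fin n) (Fin n) ℝ} {W T : (K4 (Pair n) → ℝ) → ℝ}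
  {KW M Z η κ δ3 : ℝ}

lemma M0 (D : F2Data φ A C W T KW M Z η κ δ3) : 0 < M := by linarith [D.hM]

lemma Z0 (D : F2Data φ A C W T KW M Z η κ δ3) : 0 < Z := by linarith [D.hZ]

lemma n1 (D : F2Data φ A C W T KW M Z η κ δ3) : (1 : ℝ) ≤ n := by exact_mod_cast D.hn

lemma KW0 (D : F2Data φ A C W T KW M Z η κ δ3) : 0 ≤ KW := (D.W0 0).trans (D.bW 0)

lemma P0 (D : F2Data φ A C W T KW M Z η κ δ3) : 0 ≤ Im φ W := Im_nonneg' D.h0 D.W0

lemma B0 (D : F2Data φ A C W T KW M Z η κ δ3) : 0 ≤ KW * n ^ 5 * η := by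
  have h1 := D.KW0
  have h2 := D.hη
  positivity

lemma ew1 (D : F2Data φ A C W T KW M Z η κ δ3) :
    EG fun w => W w * hh (1 / 200 * M ^ 2) (A w) := by
  have := D.M0
  exact D.eW.mul (eg_hh (by positivity) D.hA)

lemma eχ (D : F2Data φ A C W T KW M Z η κ δ3) :
    EG fun w => W w * hh (1 / 200 * M ^ 2) (A w) * gk κ (A w) (C w) :=
  D.ew1.mul (eg_gk D.hκ D.hA D.hC)

lemma eb (D : F2Data φ A C W T KW M Z η κ δ3) : EG fun w => bb (Z * M) (A w) (C w) :=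
  eg_bb D.hA D.hC

lemma hin (D : F2Data φ A C W T KW M Z η κ δ3) (w) (hw : bb (Z * M) (A w) (C w) = 0) :
    nf (A w) ≤ Z * M ∧ nf (C w) ≤ Z * M := by
  unfold bb at hw
  split_ifs at hw with hc
  · exact hc
  · norm_num at hw

lemma hout (D : F2Data φ A C W T KW M Z η κ δ3) (w) :
    bb (Z * M) (A w) (C w) = 0 ∨ bb (Z * M) (A w) (C w) = 1 := by
  unfold bb
  split_ifs
  · exact Or.inl rfl
  · exact Or.inr rfl

lemma hh1 (D : F2Data φ A C W T KW M Z η κ δ3) (w) :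
    hh (1 / 200 * M ^ 2) (A w) ≤ 40000 / M ^ 4 := by
  have := D.M0
  refine (hh_le (by positivity) (A w)).trans (le_of_eq ?_)
  field_simp
  norm_num

lemma hh2 (D : F2Data φ A C W T KW M Z η κ δ3) (w) :
    hh (1 / 200 * M ^ 2) (A w) ≤ 40000 := by
  have h1 := D.M0
  refine (D.hh1 w).trans ?_
  rw [div_le_iff₀ (by positivity)]
  have : 1 ≤ M ^ 4 := one_le_pow₀ D.hM
  linarith

lemma sA (D : F2Data φ A C W T KW M Z η κ δ3) (w) : √(dfc (A w)) ≤ (n : ℝ) ^ 2 :=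
  sq_dfc_le.trans (pow_le_pow_left₀ (nf_nonneg _) (D.bA w) 2)

lemma sC (D : F2Data φ A C W T KW M Z η κ δ3) (w) : √(dfc (C w)) ≤ (n : ℝ) ^ 2 :=
  sq_dfc_le.trans (pow_le_pow_left₀ (nf_nonneg _) (D.bC w) 2)

lemma dA (D : F2Data φ A C W T KW M Z η κ δ3) :
    Im φ (fun w => W w * √(dfc (A w))) ≤ δ3 * M ^ 2 * Im φ W :=
  Im_sqrt_dfc D.h D.h0 D.eW D.W0 (((eg_frm D.hA).pow 2).sub (eg_frm (eg_mm' D.hA D.hA)))
    (eg_dfc D.hA) D.hδ3 D.M0 (fun w => dfc_nonneg (psd_of (D.pA w))) D.hdA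

lemma dC (D : F2Data φ A C W T KW M Z η κ δ3) :
    Im φ (fun w => W w * √(dfc (C w))) ≤ δ3 * M ^ 2 * Im φ W :=
  Im_sqrt_dfc D.h D.h0 D.eW D.W0 (((eg_frm D.hC).pow 2).sub (eg_frm (eg_mm' D.hC D.hC)))
    (eg_dfc D.hC) D.hδ3 D.M0 (fun w => dfc_nonneg (psd_of (D.pC w))) D.hdC

/-- the general defect term -/
theorem gen (D : F2Data φ A C W T KW M Z η κ δ3) (X d : (K4 (Pair n) → ℝ) → ℝ) (j : ℕ)
    (eX : EG X) (ed : EG d) (X0 : ∀ w, 0 ≤ X w) (d0 : ∀ w, 0 ≤ d w)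
    (dn : ∀ w, d w ≤ (n : ℝ) ^ 2) (Xn : ∀ w, X w ≤ (n : ℝ) ^ 3)
    (Xg : ∀ w, bb (Z * M) (A w) (C w) = 0 → X w ≤ (Z * M) ^ j)
    (hd : Im φ (fun w => W w * d w) ≤ δ3 * M ^ 2 * Im φ W) :
    Im φ (fun w => W w * hh (1 / 200 * M ^ 2) (A w) * gk κ (A w) (C w) * (X w * d w)) ≤
      40000 / κ * ((Z * M) ^ j / M ^ 2 * δ3 * Im φ W + KW * n ^ 5 * η) := by
  have hM0 := D.M0
  have hZ0 := D.Z0
  have hKW := D.KW0
  have hκ := D.hκ
  have hη := D.hη
  have hf : EG fun w => W w * hh (1 / 200 * M ^ 2) (A w) * gk κ (A w) (C w) * (X w * d w) :=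
    D.eχ.mul (eX.mul ed)
  have hg : EG fun w => 40000 / κ * ((Z * M) ^ j / M ^ 4) * (W w * d w) :=
    (D.eW.mul ed).const_mul _
  have key := Im_rare (η := η) (K := 40000 / κ * (KW * n ^ 5)) D.h D.h0 hf hg D.eb
    (by positivity) (fun w => ?_) D.hB
  · rw [Im_const_mul] at key
    have h1 : 40000 / κ * ((Z * M) ^ j / M ^ 4) * Im φ (fun w => W w * d w) ≤
        40000 / κ * ((Z * M) ^ j / M ^ 4) * (δ3 * M ^ 2 * Im φ W) :=
      mul_le_mul_of_nonneg_left hd (by positivity)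
    have h2 : 40000 / κ * ((Z * M) ^ j / M ^ 4) * (δ3 * M ^ 2 * Im φ W) =
        40000 / κ * ((Z * M) ^ j / M ^ 2 * δ3 * Im φ W) := by
      field_simp
    rw [h2] at h1
    have h3 : 40000 / κ * (KW * n ^ 5) * η = 40000 / κ * (KW * n ^ 5 * η) := by ring
    rw [h3] at key
    linarith
  · have g0 := gk_nonneg hκ (A w) (C w)
    have g1 := gk_le hκ (A w) (C w)
    have k0 := hh_nonneg (1 / 200 * M ^ 2) (A w)
    have hXd : 0 ≤ X w * d w := mul_nonneg (X0 w) (d0 w)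
    have hW := D.W0 w
    rcases D.hout w with hz | hz
    · have h1 := Xg w hz
      rw [hz, mul_zero, add_zero]
      calc W w * hh (1 / 200 * M ^ 2) (A w) * gk κ (A w) (C w) * (X w * d w) ≤
            W w * (40000 / M ^ 4) * (1 / κ) * ((Z * M) ^ j * d w) := by
            refine mul_le_mul ?_ (mul_le_mul_of_nonneg_right h1 (d0 w)) hXd (by positivity)
            exact mul_le_mul (mul_le_mul_of_nonneg_left (D.hh1 w) hW) g1 g0 (by positivity)
        _ = 40000 / κ * ((Z * M) ^ j / M ^ 4) * (W w * d w) := by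
            field_simp
    · rw [hz, mul_one]
      have h2 : 0 ≤ 40000 / κ * ((Z * M) ^ j / M ^ 4) * (W w * d w) :=
        mul_nonneg (by positivity) (mul_nonneg hW (d0 w))
      have h3 : W w * hh (1 / 200 * M ^ 2) (A w) * gk κ (A w) (C w) * (X w * d w) ≤
          KW * 40000 * (1 / κ) * ((n : ℝ) ^ 3 * (n : ℝ) ^ 2) := by
        refine mul_le_mul ?_ (mul_le_mul (Xn w) (dn w) (d0 w) (by positivity)) hXd
          (by positivity)
        exact mul_le_mul (mul_le_mul (D.bW w) (D.hh2 w) k0 hKW) g1 g0 (by positivity)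
      have e : KW * 40000 * (1 / κ) * ((n : ℝ) ^ 3 * (n : ℝ) ^ 2) =
          40000 / κ * (KW * n ^ 5) := by
        field_simp
      rw [e] at h3
      linarith

/-- the diagonal term -/
theorem diag (D : F2Data φ A C W T KW M Z η κ δ3) :
    Im φ (fun w => W w * hh (1 / 200 * M ^ 2) (A w) * gk κ (A w) (C w) *
      (A w * (A w * C w)).trace) ≤
      1 / κ * (50 * (Z / M) * Im φ W + 40000 * (KW * n ^ 5 * η)) := by
  have hM0 := D.M0
  have hZ0 := D.Z0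
  have hKW := D.KW0
  have hκ := D.hκ
  have hη := D.hη
  have hn1 := D.n1
  have eT4 : EG fun w => (A w * (A w * C w)).trace := by
    simp only [Matrix.trace, Matrix.diag_apply]
    exact EG.sum _ fun i _ => eg_mm' D.hA (eg_mm' D.hA D.hC) i i
  have key := Im_rare (η := η) (K := 40000 / κ * (KW * n ^ 5))
    (f := fun w => W w * hh (1 / 200 * M ^ 2) (A w) * gk κ (A w) (C w) *
      (A w * (A w * C w)).trace) (g := fun w => 50 / κ * (Z / M) * W w) D.h D.h0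
    (D.eχ.mul eT4) (D.eW.const_mul _) D.eb (by positivity) (fun w => ?_) D.hB
  · rw [Im_const_mul] at key
    refine key.trans (le_of_eq ?_)
    ring
  · have g0 := gk_nonneg hκ (A w) (C w)
    have g1 := gk_le hκ (A w) (C w)
    have k0 := hh_nonneg (1 / 200 * M ^ 2) (A w)
    have t1 := (le_abs_self _).trans (tr_AAC_le (A := A w) (C := C w) (D.pA w))
    have q0 := nf_nonneg (A w)
    have q0' := nf_nonneg (C w)
    have hW := D.W0 w
    have h1 : W w * hh (1 / 200 * M ^ 2) (A w) * gk κ (A w) (C w) *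
        (A w * (A w * C w)).trace ≤ W w * (hh (1 / 200 * M ^ 2) (A w) * nf (A w) ^ 2) *
          gk κ (A w) (C w) * nf (C w) := by
      have := mul_le_mul_of_nonneg_left t1 (mul_nonneg (mul_nonneg hW k0) g0)
      refine this.trans (le_of_eq ?_)
      ring
    rcases D.hout w with hz | hz
    · rw [hz, mul_zero, add_zero]
      refine h1.trans ?_
      have h2 : hh (1 / 200 * M ^ 2) (A w) * nf (A w) ^ 2 ≤ 50 / M ^ 2 := by
        refine (hh_fr (by positivity) (A w)).trans (le_of_eq ?_)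
        field_simp
        norm_num
      calc W w * (hh (1 / 200 * M ^ 2) (A w) * nf (A w) ^ 2) * gk κ (A w) (C w) *
            nf (C w) ≤ W w * (50 / M ^ 2) * (1 / κ) * (Z * M) := by
            refine mul_le_mul ?_ (D.hin w hz).2 q0' (by positivity)
            exact mul_le_mul (mul_le_mul_of_nonneg_left h2 hW) g1 g0 (by positivity)
        _ = 50 / κ * (Z / M) * W w := by field_simp
    · rw [hz, mul_one]
      have h2 : 0 ≤ 50 / κ * (Z / M) * W w := mul_nonneg (by positivity) hW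
      have h3 : W w * (hh (1 / 200 * M ^ 2) (A w) * nf (A w) ^ 2) * gk κ (A w) (C w) *
          nf (C w) ≤ KW * (40000 * (n : ℝ) ^ 2) * (1 / κ) * n := by
        refine mul_le_mul ?_ (D.bC w) q0' (by positivity)
        refine mul_le_mul ?_ g1 g0 (by positivity)
        refine mul_le_mul (D.bW w) ?_ (by positivity) hKW
        exact mul_le_mul (D.hh2 w) (pow_le_pow_left₀ q0 (D.bA w) 2) (by positivity)
          (by norm_num)
      have h4 : KW * (40000 * (n : ℝ) ^ 2) * (1 / κ) * n ≤ 40000 / κ * (KW * n ^ 5) := by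
        have e : KW * (40000 * (n : ℝ) ^ 2) * (1 / κ) * n = 40000 / κ * (KW * n ^ 3) := by
          field_simp
        rw [e]
        have : (n : ℝ) ^ 3 ≤ (n : ℝ) ^ 5 := pow_le_pow_right₀ hn1 (by norm_num)
        gcongr
      linarith

/-- the bracket of order two -/
theorem brk2 (D : F2Data φ A C W T KW M Z η κ δ3) :
    Im φ (fun w => W w * hh (1 / 200 * M ^ 2) (A w) * gk κ (A w) (C w) *
      (nf (C w) ^ 2 * √(dfc (A w)) + nf (A w) ^ 2 * √(dfc (C w)))) ≤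
      40000 / κ * (2 * (Z ^ 2 * δ3 * Im φ W) + 2 * (KW * n ^ 5 * η)) := by
  have hM0 := D.M0
  have e1 := eg_nf D.hA
  have e2 := eg_nf D.hC
  have ed1 := eg_dfc D.hA
  have ed2 := eg_dfc D.hC
  have n13 : (n : ℝ) ^ 2 ≤ (n : ℝ) ^ 3 := pow_le_pow_right₀ D.n1 (by norm_num)
  have X3 := D.gen (fun w => nf (C w) ^ 2) (fun w => √(dfc (A w))) 2 (e2.pow 2) ed1
    (fun w => pow_nonneg (nf_nonneg _) 2) (fun w => Real.sqrt_nonneg _) D.sA
    (fun w => (pow_le_pow_left₀ (nf_nonneg _) (D.bC w) 2).trans n13)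
    (fun w hw => pow_le_pow_left₀ (nf_nonneg _) (D.hin w hw).2 2) D.dA
  have X4 := D.gen (fun w => nf (A w) ^ 2) (fun w => √(dfc (C w))) 2 (e1.pow 2) ed2
    (fun w => pow_nonneg (nf_nonneg _) 2) (fun w => Real.sqrt_nonneg _) D.sC
    (fun w => (pow_le_pow_left₀ (nf_nonneg _) (D.bA w) 2).trans n13)
    (fun w hw => pow_le_pow_left₀ (nf_nonneg _) (D.hin w hw).1 2) D.dC
  have c2 : (Z * M) ^ 2 / M ^ 2 * δ3 * Im φ W = Z ^ 2 * δ3 * Im φ W := by
    field_simp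
  rw [c2] at X3 X4
  have e : (fun w => W w * hh (1 / 200 * M ^ 2) (A w) * gk κ (A w) (C w) *
      (nf (C w) ^ 2 * √(dfc (A w)) + nf (A w) ^ 2 * √(dfc (C w)))) = fun w =>
      W w * hh (1 / 200 * M ^ 2) (A w) * gk κ (A w) (C w) * (nf (C w) ^ 2 * √(dfc (A w))) +
      W w * hh (1 / 200 * M ^ 2) (A w) * gk κ (A w) (C w) * (nf (A w) ^ 2 * √(dfc (C w))) :=
    funext fun w => mul_add _ _ _
  rw [e, Im_add D.h (D.eχ.mul ((e2.pow 2).mul ed1)) (D.eχ.mul ((e1.pow 2).mul ed2))]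
  refine (add_le_add X3 X4).trans (le_of_eq ?_)
  ring

/-- the bracket of order three -/
theorem brk3 (D : F2Data φ A C W T KW M Z η κ δ3) :
    Im φ (fun w => W w * hh (1 / 200 * M ^ 2) (A w) * gk κ (A w) (C w) *
      (9 * (nf (C w) ^ 3 * √(dfc (A w))) + 5 * (nf (A w) ^ 2 * nf (C w) * √(dfc (C w))))) ≤
      40000 / κ * (14 * (Z ^ 3 * δ3 * (M * Im φ W)) + 14 * (KW * n ^ 5 * η)) := by
  have hM0 := D.M0
  have e1 := eg_nf D.hA
  have e2 := eg_nf D.hC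
  have ed1 := eg_dfc D.hA
  have ed2 := eg_dfc D.hC
  have X1 := D.gen (fun w => nf (C w) ^ 3) (fun w => √(dfc (A w))) 3 (e2.pow 3) ed1
    (fun w => pow_nonneg (nf_nonneg _) 3) (fun w => Real.sqrt_nonneg _) D.sA
    (fun w => pow_le_pow_left₀ (nf_nonneg _) (D.bC w) 3)
    (fun w hw => pow_le_pow_left₀ (nf_nonneg _) (D.hin w hw).2 3) D.dA
  have X2 := D.gen (fun w => nf (A w) ^ 2 * nf (C w)) (fun w => √(dfc (C w))) 3
    ((e1.pow 2).mul e2) ed2
    (fun w => mul_nonneg (pow_nonneg (nf_nonneg _) 2) (nf_nonneg _))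
    (fun w => Real.sqrt_nonneg _) D.sC
    (fun w => (mul_le_mul (pow_le_pow_left₀ (nf_nonneg _) (D.bA w) 2) (D.bC w) (nf_nonneg _)
      (by positivity)).trans (le_of_eq (by ring)))
    (fun w hw => (mul_le_mul (pow_le_pow_left₀ (nf_nonneg _) (D.hin w hw).1 2) (D.hin w hw).2
      (nf_nonneg _) (sq_nonneg _)).trans (le_of_eq (by ring))) D.dC
  have c3 : (Z * M) ^ 3 / M ^ 2 * δ3 * Im φ W = Z ^ 3 * δ3 * (M * Im φ W) := by
    field_simp
  rw [c3] at X1 X2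
  have e : (fun w => W w * hh (1 / 200 * M ^ 2) (A w) * gk κ (A w) (C w) *
      (9 * (nf (C w) ^ 3 * √(dfc (A w))) + 5 * (nf (A w) ^ 2 * nf (C w) * √(dfc (C w))))) =
      fun w => 9 * (W w * hh (1 / 200 * M ^ 2) (A w) * gk κ (A w) (C w) *
        (nf (C w) ^ 3 * √(dfc (A w)))) +
      5 * (W w * hh (1 / 200 * M ^ 2) (A w) * gk κ (A w) (C w) *
        (nf (A w) ^ 2 * nf (C w) * √(dfc (C w)))) :=
    funext fun w => by ring
  rw [e, Im_add D.h ((D.eχ.mul ((e2.pow 3).mul ed1)).const_mul 9)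
    ((D.eχ.mul (((e1.pow 2).mul e2).mul ed2)).const_mul 5), Im_const_mul, Im_const_mul]
  have h1 := mul_le_mul_of_nonneg_left X1 (show (0 : ℝ) ≤ 9 by norm_num)
  have h2 := mul_le_mul_of_nonneg_left X2 (show (0 : ℝ) ≤ 5 by norm_num)
  refine (add_le_add h1 h2).trans (le_of_eq ?_)
  ring

/-- the size of `C` in the form `T` -/
theorem rareT (D : F2Data φ A C W T KW M Z η κ δ3) :
    Im φ (fun w => T w * nf (C w)) ≤ Z * M * Im φ T + KW * n ^ 5 * η := by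
  have hM0 := D.M0
  have hZ0 := D.Z0
  have hKW := D.KW0
  have hn1 := D.n1
  have key := Im_rare (η := η) (K := KW * n ^ 5) (f := fun w => T w * nf (C w))
    (g := fun w => Z * M * T w) D.h D.h0 (D.eT.mul (eg_nf D.hC)) (D.eT.const_mul _) D.eb
    (by positivity) (fun w => ?_) D.hB
  · rw [Im_const_mul] at key
    exact key
  · rcases D.hout w with hz | hz
    · rw [hz, mul_zero, add_zero, mul_comm (Z * M)]
      exact mul_le_mul_of_nonneg_left (D.hin w hz).2 (D.T0 w)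
    · rw [hz, mul_one]
      have h2 : 0 ≤ Z * M * T w := mul_nonneg (by positivity) (D.T0 w)
      have h3 : T w * nf (C w) ≤ KW * n := mul_le_mul (D.bT w) (D.bC w) (nf_nonneg _) hKW
      have h4 : KW * (n : ℝ) ≤ KW * n ^ 5 := by
        have : (n : ℝ) ^ 1 ≤ (n : ℝ) ^ 5 := pow_le_pow_right₀ hn1 (by norm_num)
        rw [pow_one] at this
        gcongr
      linarith

lemma fr_sub_le4 (D : F2Data φ A C W T KW M Z η κ δ3) (w) :
    fr (C w - A w) ≤ 4 * (n : ℝ) ^ 2 := by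
  have h8 : nf (C w - A w) ≤ nf (C w) + nf (A w) := by
    have h9 : nf (C w - A w) ^ 2 ≤ (nf (C w) + nf (A w)) ^ 2 := by
      have h10 : nf (C w - A w) ^ 2 = nf (C w) ^ 2 - 2 * ip (C w) (A w) + nf (A w) ^ 2 := by
        rw [nf_sq, nf_sq, nf_sq]
        unfold fr ip
        simp only [Matrix.sub_apply, Finset.mul_sum, ← Finset.sum_add_distrib,
          ← Finset.sum_sub_distrib]
        exact Finset.sum_congr rfl fun i _ => Finset.sum_congr rfl fun j _ => by ring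
      have h11 := neg_abs_le (ip (C w) (A w))
      have h12 := ip_le_nf (C w) (A w)
      rw [h10]
      nlinarith
    exact (le_abs_self _).trans (abs_le_of_sq_le_sq h9
      (add_nonneg (nf_nonneg _) (nf_nonneg _)))
  have h9 : nf (C w - A w) ≤ 2 * n := by linarith [D.bA w, D.bC w]
  rw [← nf_sq]
  refine (pow_le_pow_left₀ (nf_nonneg _) h9 2).trans (le_of_eq ?_)
  ring

/-- the size of `C` in the increment -/
theorem rareD (D : F2Data φ A C W T KW M Z η κ δ3) :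
    Im φ (fun w => W w * (nf (C w) * fr (C w - A w))) ≤
      Z * M * Im φ (fun w => W w * fr (C w - A w)) + M ^ 2 * (4 * (KW * n ^ 5 * η)) := by
  have hM0 := D.M0
  have hZ0 := D.Z0
  have hKW := D.KW0
  have hn1 := D.n1
  have hB0 := D.B0
  have eDs : EG fun w => fr (C w - A w) := eg_frm (A := fun w => C w - A w) fun i j => by
    simpa only [Matrix.sub_apply] using (D.hC i j).sub (D.hA i j)
  have key := Im_rare (η := η) (K := 4 * (KW * n ^ 5))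
    (f := fun w => W w * (nf (C w) * fr (C w - A w)))
    (g := fun w => Z * M * (W w * fr (C w - A w))) D.h D.h0
    (D.eW.mul ((eg_nf D.hC).mul eDs)) ((D.eW.mul eDs).const_mul _) D.eb (by positivity)
    (fun w => ?_) D.hB
  · rw [Im_const_mul] at key
    have e : 4 * (KW * (n : ℝ) ^ 5) * η = 4 * (KW * n ^ 5 * η) := by ring
    rw [e] at key
    have h5 : 4 * (KW * n ^ 5 * η) ≤ M ^ 2 * (4 * (KW * n ^ 5 * η)) := by
      have : 1 ≤ M ^ 2 := one_le_pow₀ D.hM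
      nlinarith
    linarith
  · have f0 := H332.fr_nonneg (C w - A w)
    have hW := D.W0 w
    rcases D.hout w with hz | hz
    · rw [hz, mul_zero, add_zero]
      have h6 := mul_le_mul_of_nonneg_left (mul_le_mul_of_nonneg_right (D.hin w hz).2 f0) hW
      refine h6.trans (le_of_eq ?_)
      ring
    · rw [hz, mul_one]
      have h2 : 0 ≤ Z * M * (W w * fr (C w - A w)) :=
        mul_nonneg (by positivity) (mul_nonneg hW f0)
      have h3 : W w * (nf (C w) * fr (C w - A w)) ≤ KW * (n * (4 * (n : ℝ) ^ 2)) :=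
        mul_le_mul (D.bW w) (mul_le_mul (D.bC w) (D.fr_sub_le4 w) f0 (by positivity))
          (mul_nonneg (nf_nonneg _) f0) hKW
      have h4 : KW * (n * (4 * (n : ℝ) ^ 2)) ≤ 4 * (KW * n ^ 5) := by
        have : (n : ℝ) ^ 3 ≤ (n : ℝ) ^ 5 := pow_le_pow_right₀ hn1 (by norm_num)
        have e : KW * (n * (4 * (n : ℝ) ^ 2)) = 4 * (KW * n ^ 3) := by ring
        rw [e]
        gcongr
      linarith

/-- the numbers of the brackets -/
theorem brk (D : F2Data φ A C W T KW M Z η κ δ3) {K0 τ v : ℝ} (hK0 : 0 ≤ K0) (hv : 0 ≤ v)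
    (hκe : 2 * κ * K0 = τ) (q1 : K0 * Z ≤ 1 / 10 ^ 8 * (v * M ^ 2))
    (q2 : K0 * Z ^ 2 * δ3 ≤ 1 / 10 ^ 12 * (v * M)) (q3 : Z ^ 3 * δ3 ≤ 1 / 10 ^ 14 * κ) :
    τ * (2 * Im φ (fun w => W w * hh (1 / 200 * M ^ 2) (A w) * gk κ (A w) (C w) *
        (A w * (A w * C w)).trace) +
      Im φ (fun w => W w * hh (1 / 200 * M ^ 2) (A w) * gk κ (A w) (C w) *
        (nf (C w) ^ 2 * √(dfc (A w)) + nf (A w) ^ 2 * √(dfc (C w))))) +
    v * Im φ (fun w => W w * hh (1 / 200 * M ^ 2) (A w) * gk κ (A w) (C w) *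
      (9 * (nf (C w) ^ 3 * √(dfc (A w))) + 5 * (nf (A w) ^ 2 * nf (C w) * √(dfc (C w))))) ≤
      23 / 10 ^ 7 * (v * (M * Im φ W)) + 320000 * (K0 * (KW * n ^ 5 * η)) +
        560000 * (v / κ * (KW * n ^ 5 * η)) := by
  have hM0 := D.M0
  have hκ := D.hκ
  have hP0 := D.P0
  have hτ : 0 ≤ τ := by rw [← hκe]; positivity
  have X5 := D.diag
  have Y1 := D.brk2
  have Y2 := D.brk3
  obtain ⟨B, hB⟩ : ∃ B, B = KW * n ^ 5 * η := ⟨_, rfl⟩
  obtain ⟨P, hP⟩ : ∃ P, P = Im φ W := ⟨_, rfl⟩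
  obtain ⟨x5, hx5⟩ : ∃ x, x = Im φ (fun w => W w * hh (1 / 200 * M ^ 2) (A w) *
    gk κ (A w) (C w) * (A w * (A w * C w)).trace) := ⟨_, rfl⟩
  obtain ⟨x1, hx1⟩ : ∃ x, x = Im φ (fun w => W w * hh (1 / 200 * M ^ 2) (A w) *
    gk κ (A w) (C w) * (nf (C w) ^ 2 * √(dfc (A w)) + nf (A w) ^ 2 * √(dfc (C w)))) :=
      ⟨_, rfl⟩
  obtain ⟨x2, hx2⟩ : ∃ x, x = Im φ (fun w => W w * hh (1 / 200 * M ^ 2) (A w) *
    gk κ (A w) (C w) * (9 * (nf (C w) ^ 3 * √(dfc (A w))) +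
      5 * (nf (A w) ^ 2 * nf (C w) * √(dfc (C w))))) := ⟨_, rfl⟩
  rw [← hB, ← hP, ← hx5] at X5
  rw [← hB, ← hP, ← hx1] at Y1
  rw [← hB, ← hP, ← hx2] at Y2
  rw [← hx5, ← hx1, ← hx2, ← hB, ← hP]
  rw [← hP] at hP0
  have hκK0 : τ / κ = 2 * K0 := by rw [← hκe]; field_simp
  have R1 : τ * (2 * x5 + x1) ≤ 22 / 10 ^ 7 * (v * (M * P)) + 320000 * (K0 * B) := by
    have h1 := mul_le_mul_of_nonneg_left (add_le_add (mul_le_mul_of_nonneg_left X5
      (show (0 : ℝ) ≤ 2 by norm_num)) Y1) hτ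
    refine h1.trans ?_
    have e : τ * (2 * (1 / κ * (50 * (Z / M) * P + 40000 * B)) +
        40000 / κ * (2 * (Z ^ 2 * δ3 * P) + 2 * B)) =
        τ / κ * (100 * (Z / M) * P + 80000 * (Z ^ 2 * δ3) * P + 160000 * B) := by
      field_simp
      ring
    rw [e, hκK0]
    have h2 : K0 * (Z / M) ≤ 1 / 10 ^ 8 * (v * M) := by
      have h3 := div_le_div_of_nonneg_right q1 hM0.le
      have e3 : K0 * Z / M = K0 * (Z / M) := by ring
      have e4 : 1 / 10 ^ 8 * (v * M ^ 2) / M = 1 / 10 ^ 8 * (v * M) := by field_simp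
      rw [e3, e4] at h3
      exact h3
    have h3 := mul_le_mul_of_nonneg_right h2 hP0
    have h4 := mul_le_mul_of_nonneg_right q2 hP0
    have h5 : 0 ≤ v * (M * P) := mul_nonneg hv (mul_nonneg hM0.le hP0)
    have e5 : 2 * K0 * (100 * (Z / M) * P + 80000 * (Z ^ 2 * δ3) * P + 160000 * B) =
        200 * (K0 * (Z / M) * P) + 160000 * (K0 * Z ^ 2 * δ3 * P) + 320000 * (K0 * B) := by
      ring
    have e6 : 1 / 10 ^ 8 * (v * M) * P = 1 / 10 ^ 8 * (v * (M * P)) := by ring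
    have e7 : 1 / 10 ^ 12 * (v * M) * P = 1 / 10 ^ 12 * (v * (M * P)) := by ring
    rw [e5]
    rw [e6] at h3
    rw [e7] at h4
    linarith
  have R2 : v * x2 ≤ 1 / 10 ^ 8 * (v * (M * P)) + 560000 * (v / κ * B) := by
    have h1 := mul_le_mul_of_nonneg_left Y2 hv
    refine h1.trans ?_
    have e : v * (40000 / κ * (14 * (Z ^ 3 * δ3 * (M * P)) + 14 * B)) =
        560000 * ((v / κ) * (Z ^ 3 * δ3)) * (M * P) + 560000 * (v / κ * B) := by
      field_simp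
      ring
    rw [e]
    have h2 : (v / κ) * (Z ^ 3 * δ3) ≤ 1 / 10 ^ 14 * v := by
      have h3 := mul_le_mul_of_nonneg_left q3 (show 0 ≤ v / κ by positivity)
      refine h3.trans (le_of_eq ?_)
      field_simp
    have h3 := mul_le_mul_of_nonneg_right h2 (mul_nonneg hM0.le hP0)
    have h4 : 0 ≤ v * (M * P) := mul_nonneg hv (mul_nonneg hM0.le hP0)
    nlinarith
  have h4 : 0 ≤ v * (M * P) := mul_nonneg hv (mul_nonneg hM0.le hP0)
  linarith

end F2Data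

/-- **Row F2 in numbers.**  `W = tr (Y A²)`, `W2 = tr (Y C²)`, `T = tr (Y (C - A)²)`,
`Rr = tr (Y C) |C|²`, `N` the nonlinear part; `M = n ρ`. -/
theorem f2_all {A C : (K4 (Pair n) → ℝ) → Matrix (Fin n) (Fin n) ℝ}
    {W W2 T Rr N : (K4 (Pair n) → ℝ) → ℝ} {KW M Z η κ δ3 : ℝ}
    (D : F2Data φ A C W T KW M Z η κ δ3)
    (fA : ∀ w, 0 < fr (A w)) (fC : ∀ w, 0 < fr (C w))
    (eW2 : EG W2) (eR : EG Rr) (eN : EG N) (N0 : ∀ w, 0 ≤ N w)
    (hW2 : ∀ w, W w ≤ (1 + 1 / 200) * W2 w + 201 * T w)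
    (hRr : ∀ w, W2 w * nf (C w) ≤ Rr w)
    {τ v K0 δ1 δ2 SL eL Dd E1 eK eKg : ℝ} (hK0 : 0 ≤ K0) (hv : 0 ≤ v)
    (hκe : 2 * κ * K0 = τ) (heK : 0 ≤ eK) (hErr : 0 ≤ Dd + E1 + eL + 2 * κ * eKg)
    -- the lower share, the good times
    (hlow : Im φ (fun w => W w * gg M (A w)) ≤ δ1 * Im φ W)
    (hT2 : Im φ T ≤ δ2 * Im φ W)
    (hD2 : Im φ (fun w => W w * fr (C w - A w)) ≤ δ2 * M ^ 2 * Im φ W)
    (hR : 1 / 2 * (M * Im φ W) ≤ Im φ Rr)
    -- the rows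
    (hm : Im φ (fun w => (W w * hh (1 / 200 * M ^ 2) (A w)) * N w * nf (A w) ^ 2 *
        ip (A w) (C w)) =
      Im φ (fun w => (W w * hh (1 / 200 * M ^ 2) (A w)) * N w * nf (A w) ^ 2 * nf (A w) ^ 2))
    (hKg : Im φ (fun w => (W w * hh (1 / 200 * M ^ 2) (A w)) * (nf (A w) ^ 2 * nf (C w) ^ 2) *
        (aa (A w) (C w) * (gk κ (A w) (C w) * N w))) ≤
      K0 * Im φ (fun w => (W w * hh (1 / 200 * M ^ 2) (A w)) * (nf (A w) ^ 2 * nf (C w) ^ 2) *
        (aa (A w) (C w) * gk κ (A w) (C w))) + eKg)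
    (hL : Im φ (fun w => (W w * hh (1 / 200 * M ^ 2) (A w)) * (nf (A w) ^ 2 * nf (C w) ^ 2) *
        (aa (A w) (C w) * (gk κ (A w) (C w) * (1 - aa (A w) (C w) ^ 2) * N w))) ≤ SL + eL)
    (hI : SL + τ * (Im φ (fun w => (W w * hh (1 / 200 * M ^ 2) (A w)) * gk κ (A w) (C w) *
          (A w * (A w * (C w * C w))).trace) -
        2 * Im φ (fun w => (W w * hh (1 / 200 * M ^ 2) (A w)) * gk κ (A w) (C w) *
          (A w * (A w * C w)).trace)) ≤
      Dd + v * Im φ (fun w => (W w * hh (1 / 200 * M ^ 2) (A w)) * gk κ (A w) (C w) *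
        K3 (A w) (C w)) + E1)
    (hK : Im φ (fun w => W w * gg M (A w) * N w) ≤ K0 * Im φ (fun w => W w * gg M (A w)) + eK)
    -- the numbers
    (hδ1 : K0 * δ1 ≤ 1 / 10 ^ 6 * (v * M)) (hδ2 : Z * δ2 ≤ 1 / 10 ^ 12)
    (q1 : K0 * Z ≤ 1 / 10 ^ 8 * (v * M ^ 2)) (q2 : K0 * Z ^ 2 * δ3 ≤ 1 / 10 ^ 12 * (v * M))
    (q3 : Z ^ 3 * δ3 ≤ 1 / 10 ^ 14 * κ) :
    2 * Im φ (fun w => W w * N w) ≤ (21 / 20 + 1 / 10 ^ 5) * (v * Im φ Rr) +
      11 / 10 * (Dd + E1 + eL + 2 * κ * eKg) + 3 * eK +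
      10 ^ 8 * ((v + K0 + v / κ) * (KW * n ^ 5 * η)) := by
  have hM0 := D.M0
  have hκ := D.hκ
  have hP0 := D.P0
  have hB0 := D.B0
  have hτ : 0 ≤ τ := by rw [← hκe]; positivity
  have glue := f2_glue D.hn D.h D.h0 D.hA D.hC D.pA D.pC fA fC D.ew1
    (fun w => mul_nonneg (D.W0 w) (hh_nonneg _ _)) eN N0 hκ hτ hv (le_of_eq hκe) hm hKg hL hI
  have br := D.brk hK0 hv hκe q1 q2 q3
  obtain ⟨Er, hEr⟩ : ∃ Er, Er = (Dd + E1 + eL + 2 * κ * eKg) +
      (23 / 10 ^ 7 * (v * (M * Im φ W)) + 320000 * (K0 * (KW * n ^ 5 * η)) +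
        560000 * (v / κ * (KW * n ^ 5 * η))) := ⟨_, rfl⟩
  have hMP0 : 0 ≤ v * (M * Im φ W) := mul_nonneg hv (mul_nonneg hM0.le hP0)
  have p3 : 0 ≤ K0 * (KW * n ^ 5 * η) := mul_nonneg hK0 hB0
  have p4 : 0 ≤ v / κ * (KW * n ^ 5 * η) := mul_nonneg (div_nonneg hv hκ.le) hB0
  have p5 : 0 ≤ v * (KW * n ^ 5 * η) := mul_nonneg hv hB0
  have hEr0 : 0 ≤ Er := by
    rw [hEr]
    linarith
  have hF : 2 * Im φ (fun w => (W w * hh (1 / 200 * M ^ 2) (A w)) * N w * nf (A w) ^ 4) ≤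
      v * Im φ (fun w => (W w * hh (1 / 200 * M ^ 2) (A w)) *
        (nf (A w) * nf (C w) ^ 2 * ip (A w) (C w))) + Er := by
    rw [hEr]
    linarith
  have fin := f2_size_num (e1 := KW * n ^ 5 * η) (e2 := 4 * (KW * n ^ 5 * η)) D.h D.h0 D.hA
    D.hC D.eW eW2 D.eT eR eN D.W0 N0 hM0 hv hK0 D.Z0.le hEr0 heK hB0 (by linarith) hF hW2 hRr
    hK hlow D.rareT hT2 D.rareD hD2 hR hδ1 hδ2
  refine fin.trans ?_
  rw [hEr]
  have hR2 : v * (M * Im φ W) ≤ 2 * (v * Im φ Rr) := by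
    have := mul_le_mul_of_nonneg_left hR hv
    nlinarith
  have hR0 : 0 ≤ v * Im φ Rr := by linarith
  have f1 : 10 ^ 8 * ((v + K0 + v / κ) * (KW * n ^ 5 * η)) = 10 ^ 8 * (v * (KW * n ^ 5 * η) +
      K0 * (KW * n ^ 5 * η) + v / κ * (KW * n ^ 5 * η)) := by ring
  have f2 : 10 ^ 7 * v * (KW * n ^ 5 * η + 4 * (KW * n ^ 5 * η)) =
      5 * 10 ^ 7 * (v * (KW * n ^ 5 * η)) := by ring
  rw [f1, f2]
  linarith

end all

end Vale.Agent.P146.H561
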