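import Vale.Agent.P146.H499.Skew

/-!
Plan R2, row F2: the deterministic inequalities for two almost rank one positive semidefinite
matrices `A`, `C`, in the Frobenius letters `|A|`, `|C|`, `⟨A, C⟩` and the rank one defects:
`|AC|²` and `|[A, C]|²` from above, and the drift term of the two-time row.
-/

open Matrix Vale.Agent.P146.H332 Vale.Agent.P146.H522 Vale.Agent.P146.H633
  Vale.Agent.P146.H326.J1 Vale.Agent.P146.H499.Skew

namespace Vale.Agent.P146.H561

set_option linter.unusedSectionVars false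
set_option linter.unusedDecidableInType false

variable {m : Type} [Fintype m] [DecidableEq m]

lemma psd_of {A : Matrix m m ℝ} (hA : A.PosSemidef) : Psd A := by
  refine ⟨sym_of hA, fun c => ?_⟩
  have h := hA.dotProduct_mulVec_nonneg c
  have e : star c ⬝ᵥ (A *ᵥ c) = ∑ i, ∑ j, c i * c j * A i j := by
    simp only [dotProduct, mulVec, star_trivial, Finset.mul_sum]
    exact Finset.sum_congr rfl fun i _ => Finset.sum_congr rfl fun j _ => by ring
  rwa [e] at h

/-- `⟨A², C²⟩ ≤ |A| |C| ⟨A, C⟩ + |C|² √dA + |A|² √dC`. -/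
theorem fr_mul_le {A B : Matrix m m ℝ} (hA : Psd A) (hB : Psd B) :
    fr (A * B) ≤ nf A * nf B * ip A B + (nf B ^ 2 * √(dfc A) + nf A ^ 2 * √(dfc B)) := by
  rw [fr_mul_eq hA.1 hB.1]
  have h1 : ip (A * A) (B * B) - nf A * nf B * ip A B =
      ip (A * A - nf A • A) (B * B) + nf A * ip A (B * B - nf B • B) := by
    rw [ip_sub_left, ip_sub_right, ip_smul_left, ip_smul_right]; ring
  have h2 : |ip (A * A - nf A • A) (B * B)| ≤ √(dfc A) * nf B ^ 2 := by
    refine (ip_le_nf _ _).trans ?_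
    refine mul_le_mul (Real.sqrt_le_sqrt (fr_sq_sub_le hA)) (nf_sq_le hB) (nf_nonneg _)
      (Real.sqrt_nonneg _)
  have h3 : |ip A (B * B - nf B • B)| ≤ nf A * √(dfc B) := by
    refine (ip_le_nf _ _).trans ?_
    exact mul_le_mul_of_nonneg_left (Real.sqrt_le_sqrt (fr_sq_sub_le hB)) (nf_nonneg _)
  have h4 := (abs_le.1 h2).2
  have h5 := mul_le_mul_of_nonneg_left (abs_le.1 h3).2 (nf_nonneg A)
  nlinarith

/-- `tr (A²C²) = |A C|²` -/
lemma tr_AACC {A C : Matrix m m ℝ} (hA : Aᵀ = A) (hC : Cᵀ = C) :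
    (A * A * (C * C)).trace = fr (A * C) := by
  rw [fr_mul_eq hA hC, ip_eq_trace, transpose_mul, hA]

/-- `tr (A C A C) ≥ ⟨A, C⟩² - 2 |C|² √dA` -/
theorem tr_ACAC_ge [Nonempty m] {A C : Matrix m m ℝ} (hA : A.PosSemidef) (hC : C.PosSemidef)
    (hf : 0 < fr A) :
    ip A C ^ 2 - 2 * (nf C ^ 2 * √(dfc A)) ≤ (A * C * (A * C)).trace := by
  have hn : 0 < nf A := Real.sqrt_pos.2 hf
  obtain ⟨v, l, hv, he, -, hdd⟩ := top_eig (sym_of hA)
  obtain ⟨h1, h2, h3⟩ := dec (sym_of hA) hv he
  have hPP : (pj v * A * pj v).PosSemidef := by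
    have hp : (pj v)ᵀ = pj v := by
      unfold pj
      rw [transpose_sub, transpose_one]
      congr 1
      ext i j
      rw [transpose_apply, vecMulVec_apply, vecMulVec_apply, mul_comm]
    have := conj_psd (X := pj v) hA
    rwa [hp] at this
  have hP : nf (pj v * A * pj v) ≤ √(dfc A) / nf A := by
    rw [le_div_iff₀ hn]
    refine Real.le_sqrt_of_sq_le ?_
    rw [mul_pow, nf_sq, nf_sq]
    exact hdd
  obtain ⟨P, hPd⟩ : ∃ P, P = pj v * A * pj v := ⟨_, rfl⟩
  rw [← hPd] at h1 hPP hP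
  have hl : 0 ≤ l := by
    have h4 := hA.dotProduct_mulVec_nonneg v
    have h5 : A *ᵥ v = l • v := by ext i; rw [he]; rfl
    rwa [h5, star_trivial, dotProduct_smul, dot_self, hv, smul_eq_mul, mul_one] at h4
  obtain ⟨g, hg⟩ : ∃ g, g = v ⬝ᵥ (C *ᵥ v) := ⟨_, rfl⟩
  have hg0 : 0 ≤ g := by
    have h4 := hC.dotProduct_mulVec_nonneg v
    rwa [star_trivial, ← hg] at h4
  -- the two traces
  have hip : ip A C = l * g + (P * C).trace := by
    rw [ip_eq_trace, sym_of hA]
    conv_lhs => rw [h1]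
    rw [Matrix.add_mul, Matrix.smul_mul, Matrix.trace_add, Matrix.trace_smul, smul_eq_mul,
      Matrix.trace_mul_comm (vecMulVec v v) C, tr_vv, ← hg]
  have hPC : |(P * C).trace| ≤ nf P * nf C := by
    have := ip_le_nf P C
    rwa [ip_eq_trace, sym_of hPP] at this
  have hPC0 : 0 ≤ (P * C).trace := tr_nn hPP hC
  have hT : (A * C * (A * C)).trace = l ^ 2 * g ^ 2 + 2 * l * (vecMulVec v v * (C * P * C)).trace +
      (P * (C * P * C)).trace := by
    have e1 : A * C * (A * C) = l ^ 2 • (vecMulVec v v * C * vecMulVec v v * C) +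
        l • (vecMulVec v v * (C * P * C)) + l • (P * C * (vecMulVec v v * C)) +
        P * (C * P * C) := by
      conv_lhs => rw [h1]
      simp only [Matrix.add_mul, Matrix.mul_add, Matrix.smul_mul, Matrix.mul_smul, smul_add, smul_smul, sq,
        Matrix.mul_assoc]
      abel
    have e2 : (vecMulVec v v * C * vecMulVec v v * C).trace = g ^ 2 := by
      rw [vBv, ← hg, Matrix.smul_mul, Matrix.trace_smul, smul_eq_mul,
        Matrix.trace_mul_comm (vecMulVec v v) C, tr_vv, ← hg, sq]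
    have e3 : (P * C * (vecMulVec v v * C)).trace = (vecMulVec v v * (C * P * C)).trace := by
      rw [← Matrix.mul_assoc, Matrix.trace_mul_comm, Matrix.trace_mul_comm (vecMulVec v v)]
      simp only [Matrix.mul_assoc]
    rw [e1, Matrix.trace_add, Matrix.trace_add, Matrix.trace_add, Matrix.trace_smul,
      Matrix.trace_smul, Matrix.trace_smul, e2, e3]
    simp only [smul_eq_mul]
    ring
  have hCPC : (C * P * C).PosSemidef := by
    have := conj_psd (X := C) hPP
    rwa [sym_of hC] at this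
  have n1 := tr_nn (vv_psd v) hCPC
  have n2 := tr_nn hPP hCPC
  have hlow : l ^ 2 * g ^ 2 ≤ (A * C * (A * C)).trace := by
    rw [hT]
    nlinarith [mul_nonneg hl n1]
  -- the comparison of the squares
  have hCn := nf_nonneg C
  have hAn := nf_nonneg A
  have hi0 : 0 ≤ ip A C := by rw [hip]; positivity
  have hi1 : ip A C ≤ nf A * nf C := (le_abs_self _).trans (ip_le_nf A C)
  have hb : ip A C - l * g ≤ nf P * nf C := by
    rw [hip]
    linarith [(abs_le.1 hPC).2]
  have hb' : 0 ≤ ip A C - l * g := by rw [hip]; linarith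
  have hlg : 0 ≤ l * g := mul_nonneg hl hg0
  have hm : nf A * (nf P * nf C) ≤ nf C * √(dfc A) := by
    have h6 := mul_le_mul_of_nonneg_left hP hAn
    rw [mul_div_cancel₀ _ hn.ne'] at h6
    nlinarith
  have hf2 : ip A C ^ 2 - (l * g) ^ 2 ≤ 2 * (ip A C) * (nf P * nf C) := by
    nlinarith
  have h7 : 2 * (ip A C) * (nf P * nf C) ≤ 2 * (nf C ^ 2 * √(dfc A)) := by
    have h8 : 0 ≤ nf P * nf C := mul_nonneg (nf_nonneg P) hCn
    have h9 := mul_le_mul_of_nonneg_right hi1 h8
    nlinarith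
  nlinarith

/-- **The commutator of two almost rank one matrices from above.** -/
theorem frK_le [Nonempty m] {A C : Matrix m m ℝ} (hA : A.PosSemidef) (hC : C.PosSemidef)
    (hf : 0 < fr A) :
    fr (A * C - C * A) / 2 ≤ nf A * nf C * ip A C - ip A C ^ 2 +
      (3 * (nf C ^ 2 * √(dfc A)) + nf A ^ 2 * √(dfc C)) := by
  have h1 := fr_mul_le (psd_of hA) (psd_of hC)
  have h2 := tr_ACAC_ge hA hC hf
  rw [fr_comm (sym_of hA) (sym_of hC), tr_AACC (sym_of hA) (sym_of hC)]
  linarith

/-- **The drift term of the two-time row from above.** -/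
theorem drift_top [Nonempty m] {A C : Matrix m m ℝ} (hA : A.PosSemidef) (hC : C.PosSemidef)
    (hfA : 0 < fr A) (hfC : 0 < fr C) :
    (A * A * (C * C * C)).trace - (A * (C * C) * (A * C)).trace ≤
      (nf C + 2 * (√(dfc C) / nf C)) * (nf A * nf C * ip A C - ip A C ^ 2 +
        (3 * (nf C ^ 2 * √(dfc A)) + nf A ^ 2 * √(dfc C))) := by
  refine (drift_le (sym_of hA) hC hfC).trans ?_
  have h1 := frK_le hA hC hfA
  have h2 : 0 ≤ nf C / 2 + √(dfc C) / nf C := by
    have := nf_nonneg C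
    positivity
  have h3 := mul_le_mul_of_nonneg_left h1 h2
  linarith

end Vale.Agent.P146.H561
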