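import Vale.Agent.P146.H561.F2Alg
import Vale.Agent.P146.H561.F2Det
import Vale.Agent.P146.H785.F2Num

/-!
Plan R2, row F2: **the glue.** From the two-time inequality of numbers (785's `f3_num`/`f3_tot`),
a lower bound of the nonlinear form (the left side, with the pointwise weight `w / (1 - a + κ)`),
and the crude bound of the nonlinear part at the same weight (KAP), to the row F2 without growth,
with the constant `2`.
-/

open MeasureTheory ProbabilityTheory Finset Matrix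

namespace Vale.Agent.P146.H561

open Vale.Agent.P157.Lv Vale.Agent.P146.H425 Vale.Agent.P146.H325 Vale.Agent.P146.H332
  Vale.Agent.P146.H712 Vale.Agent.P146.R1 Vale.Agent.P146.R1C Vale.Agent.P146.H706
  Vale.Agent.P146.H191 Vale.Agent.P146.H522 Vale.Agent.P146.H633
  Vale.Agent.P146.H326.J1 Vale.Agent.P146.H499.Skew Vale.Agent.P146.H785.F2N

set_option linter.unusedSectionVars false

/-! ### the absorption with KAP at the same weight -/

section gen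

variable {κ' : Type} [Fintype κ'] [DecidableEq κ'] {φ : (K4 κ' → ℝ) → ℝ}

/-- **Absorption with the crude bound at the same weight** (785). -/
theorem f2_unweight2 (h : EG φ) (h0 : ∀ w, 0 ≤ φ w) {W a N G l : (K4 κ' → ℝ) → ℝ}
    {κ τ v E K0 eK : ℝ} (hW : EG W) (hW0 : ∀ w, 0 ≤ W w) (ha : EG a) (ha0 : ∀ w, 0 ≤ a w)
    (ha1 : ∀ w, a w ≤ 1) (hN : EG N) (hN0 : ∀ w, 0 ≤ N w) (hGe : EG G) (hκ : 0 < κ)
    (hG : ∀ w, G w * (1 - a w + κ) = 1) (hl : EG l) (hl0 : ∀ w, 0 ≤ l w)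
    (hv : 0 ≤ v) (hκK : 2 * κ * K0 ≤ τ)
    (hK : Im φ (fun w => W w * (a w * (G w * N w))) ≤
      K0 * Im φ (fun w => W w * (a w * G w)) + eK)
    (H : Im φ (fun w => W w * (a w * (G w * (1 - a w ^ 2) * N w))) +
      τ * Im φ (fun w => W w * (a w * G w)) ≤
      v * Im φ (fun w => W w * (a w * (G w * (1 - a w) * l w))) + E) :
    Im φ (fun w => W w * (a w * ((1 + a w) * N w))) ≤
      v * Im φ (fun w => W w * (a w * l w)) + E + 2 * κ * eK := by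
  have e1 : EG fun w => 1 - a w ^ 2 := (EG.const 1).sub (ha.pow 2)
  have g0 : EG fun w => W w * (a w * (G w * N w)) := hW.mul (ha.mul (hGe.mul hN))
  have g1 : EG fun w => W w * (a w * (G w * (1 - a w ^ 2) * N w)) :=
    hW.mul (ha.mul ((hGe.mul e1).mul hN))
  have g4 : EG fun w => W w * (a w * ((1 + a w) * N w)) :=
    hW.mul (ha.mul (((EG.const 1).add ha).mul hN))
  have g5 : EG fun w => W w * (a w * (G w * (1 - a w) * l w)) :=
    hW.mul (ha.mul ((hGe.mul ((EG.const 1).sub ha)).mul hl))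
  have g6 : EG fun w => W w * (a w * l w) := hW.mul (ha.mul hl)
  have hG0 : ∀ w, 0 ≤ G w := fun w => by
    have hp : 0 < 1 - a w + κ := by linarith [ha1 w]
    by_contra hc
    push Not at hc
    nlinarith [hG w]
  have s1 : Im φ (fun w => W w * (a w * ((1 + a w) * N w))) ≤
      Im φ (fun w => W w * (a w * (G w * (1 - a w ^ 2) * N w)) +
        2 * κ * (W w * (a w * (G w * N w)))) := by
    refine Im_mono' h h0 g4 (g1.add (g0.const_mul _)) fun w => ?_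
    have hc : 0 ≤ W w * (a w * (G w * N w)) :=
      mul_nonneg (hW0 w) (mul_nonneg (ha0 w) (mul_nonneg (hG0 w) (hN0 w)))
    have h1 : W w * (a w * ((1 + a w) * N w)) =
        W w * (a w * (G w * (1 - a w ^ 2) * N w)) +
          κ * (1 + a w) * (W w * (a w * (G w * N w))) := by
      linear_combination (-(W w * a w * (1 + a w) * N w)) * hG w
    have h2 : κ * (1 + a w) ≤ 2 * κ := by nlinarith [ha1 w]
    rw [h1]
    linarith [mul_le_mul_of_nonneg_right h2 hc]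
  rw [Im_add h g1 (g0.const_mul _), Im_const_mul] at s1
  have s2 : Im φ (fun w => W w * (a w * (G w * (1 - a w) * l w))) ≤
      Im φ (fun w => W w * (a w * l w)) := by
    refine Im_mono' h h0 g5 g6 fun w => ?_
    have h6 : G w * (1 - a w) ≤ 1 := by nlinarith [hG w, mul_nonneg (hG0 w) hκ.le]
    have h7 : G w * (1 - a w) * l w ≤ l w := by nlinarith [hl0 w]
    exact mul_le_mul_of_nonneg_left (mul_le_mul_of_nonneg_left h7 (ha0 w)) (hW0 w)
  have s3 := mul_le_mul_of_nonneg_left s2 hv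
  have s4 : 0 ≤ Im φ (fun w => W w * (a w * G w)) :=
    Im_nonneg' h0 fun w => mul_nonneg (hW0 w) (mul_nonneg (ha0 w) (hG0 w))
  have s5 := mul_le_mul_of_nonneg_right hκK s4
  have s6 := mul_le_mul_of_nonneg_left hK (show (0 : ℝ) ≤ 2 * κ by linarith)
  nlinarith

/-- **The row F2 without the growth**, KAP at the weight `w1 G`. -/
theorem f2_alg2 (h : EG φ) (h0 : ∀ w, 0 ≤ φ w) {w1 q1 q2 ip a N G : (K4 κ' → ℝ) → ℝ}
    {κ τ v E K0 eK : ℝ} (hw : EG w1) (hw0 : ∀ w, 0 ≤ w1 w) (h1 : EG q1) (h10 : ∀ w, 0 < q1 w)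
    (h2 : EG q2) (h20 : ∀ w, 0 < q2 w) (hi : EG ip) (hi0 : ∀ w, 0 ≤ ip w)
    (hi1 : ∀ w, ip w ≤ q1 w * q2 w) (ha : EG a) (haq : ∀ w, a w * (q1 w * q2 w) = ip w)
    (hN : EG N) (hN0 : ∀ w, 0 ≤ N w) (hGe : EG G) (hκ : 0 < κ)
    (hG : ∀ w, G w * (1 - a w + κ) = 1) (hv : 0 ≤ v) (hκK : 2 * κ * K0 ≤ τ)
    (hm : Im φ (fun w => w1 w * N w * q1 w ^ 2 * ip w) =
      Im φ (fun w => w1 w * N w * q1 w ^ 2 * q1 w ^ 2))
    (hK : Im φ (fun w => w1 w * (q1 w ^ 2 * q2 w ^ 2) * (a w * (G w * N w))) ≤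
      K0 * Im φ (fun w => w1 w * (q1 w ^ 2 * q2 w ^ 2) * (a w * G w)) + eK)
    (H : Im φ (fun w => w1 w * (q1 w ^ 2 * q2 w ^ 2) * (a w * (G w * (1 - a w ^ 2) * N w))) +
      τ * Im φ (fun w => w1 w * (q1 w ^ 2 * q2 w ^ 2) * (a w * G w)) ≤
      v * Im φ (fun w => w1 w * (q1 w ^ 2 * q2 w ^ 2) * (a w * (G w * (1 - a w) * q2 w))) + E) :
    2 * Im φ (fun w => w1 w * N w * q1 w ^ 4) ≤
      v * Im φ (fun w => w1 w * (q1 w * q2 w ^ 2 * ip w)) + E + 2 * κ * eK := by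
  have e1 : EG fun w => q1 w ^ 2 := h1.pow 2
  have e2 : EG fun w => q2 w ^ 2 := h2.pow 2
  have hW : EG fun w => w1 w * (q1 w ^ 2 * q2 w ^ 2) := hw.mul (e1.mul e2)
  have hW0 : ∀ w, 0 ≤ w1 w * (q1 w ^ 2 * q2 w ^ 2) := fun w => by
    have := hw0 w
    positivity
  have hq : ∀ w, 0 < q1 w * q2 w := fun w => mul_pos (h10 w) (h20 w)
  have ha0 : ∀ w, 0 ≤ a w := fun w => by
    by_contra hc
    push Not at hc
    have h3 := haq w
    nlinarith [hi0 w, hq w]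
  have ha1 : ∀ w, a w ≤ 1 := fun w => by
    by_contra hc
    push Not at hc
    have h3 := haq w
    nlinarith [hi1 w, hq w]
  have key := f2_unweight2 h h0 hW hW0 ha ha0 ha1 hN hN0 hGe hκ hG h2 (fun w => (h20 w).le)
    hv hκK hK H
  have ew : EG fun w => w1 w * N w := hw.mul hN
  have hj := f2_jensen h h0 (f := fun w => w1 w * N w) (p := ip) (Q := fun w => q1 w ^ 2) ew
    (fun w => mul_nonneg (hw0 w) (hN0 w)) hi e1 hm
  have ei2 : EG fun w => ip w ^ 2 := hi.pow 2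
  have s1 : 2 * Im φ (fun w => w1 w * N w * ip w ^ 2) ≤
      Im φ (fun w => w1 w * (q1 w ^ 2 * q2 w ^ 2) * (a w * ((1 + a w) * N w))) := by
    rw [← Im_const_mul]
    refine Im_mono' h h0 ((ew.mul ei2).const_mul 2)
      (hW.mul (ha.mul (((EG.const 1).add ha).mul hN))) fun w => ?_
    have h3 := haq w
    have h4 : ip w ^ 2 = (q1 w ^ 2 * q2 w ^ 2) * a w ^ 2 := by rw [← h3]; ring
    have h5 : 0 ≤ w1 w * N w * (q1 w ^ 2 * q2 w ^ 2) :=
      mul_nonneg (mul_nonneg (hw0 w) (hN0 w)) (by positivity)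
    have h6 : 2 * a w ^ 2 ≤ a w * (1 + a w) := by nlinarith [ha0 w, ha1 w]
    rw [h4]
    nlinarith [mul_le_mul_of_nonneg_left h6 h5]
  have s2 : Im φ (fun w => w1 w * (q1 w ^ 2 * q2 w ^ 2) * (a w * q2 w)) =
      Im φ (fun w => w1 w * (q1 w * q2 w ^ 2 * ip w)) :=
    Im_congr fun w => by rw [← haq w]; ring
  have s4 : Im φ (fun w => w1 w * N w * (q1 w ^ 2) ^ 2) =
      Im φ (fun w => w1 w * N w * q1 w ^ 4) := Im_congr fun w => by ring
  rw [s2] at key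
  rw [s4] at hj
  linarith

end gen

/-! ### the matrices -/

section mat

variable {m : Type} [Fintype m] [DecidableEq m]

/-- the cosine of two matrices -/
noncomputable def aa (A C : Matrix m m ℝ) : ℝ := ip A C / (nf A * nf C)

/-- the weight -/
noncomputable def gk (κ : ℝ) (A C : Matrix m m ℝ) : ℝ := 1 / (1 - aa A C + κ)

lemma aa_le (A C : Matrix m m ℝ) : aa A C ≤ 1 := by
  unfold aa
  exact div_le_one_of_le₀ ((le_abs_self _).trans (ip_le_nf A C))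
    (mul_nonneg (nf_nonneg A) (nf_nonneg C))

lemma aa_abs (A C : Matrix m m ℝ) : |aa A C| ≤ 1 := by
  unfold aa
  rw [abs_div, abs_of_nonneg (mul_nonneg (nf_nonneg A) (nf_nonneg C))]
  exact div_le_one_of_le₀ (ip_le_nf A C) (mul_nonneg (nf_nonneg A) (nf_nonneg C))

lemma aa_mul {A C : Matrix m m ℝ} (hA : 0 < nf A) (hC : 0 < nf C) :
    aa A C * (nf A * nf C) = ip A C := div_mul_cancel₀ _ (mul_pos hA hC).ne'

lemma gk_mul {κ : ℝ} (hκ : 0 < κ) (A C : Matrix m m ℝ) : gk κ A C * (1 - aa A C + κ) = 1 := by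
  unfold gk
  have := aa_le A C
  exact div_mul_cancel₀ _ (by linarith)

lemma gk_nonneg {κ : ℝ} (hκ : 0 < κ) (A C : Matrix m m ℝ) : 0 ≤ gk κ A C := by
  unfold gk
  have := aa_le A C
  exact div_nonneg zero_le_one (by linarith)

lemma gk_le {κ : ℝ} (hκ : 0 < κ) (A C : Matrix m m ℝ) : gk κ A C ≤ 1 / κ := by
  unfold gk
  have := aa_le A C
  exact one_div_le_one_div_of_le hκ (by linarith)

/-- `√dfc ≤ |A|²` -/
lemma sq_dfc_le {A : Matrix m m ℝ} : √(dfc A) ≤ nf A ^ 2 := by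
  rw [Real.sqrt_le_left (sq_nonneg _), nf_sq, dfc]
  linarith [H332.fr_nonneg (A * A)]

/-- the drift form of the two-time row -/
theorem K3_top [Nonempty m] {A C : Matrix m m ℝ} (hA : A.PosSemidef) (hC : C.PosSemidef)
    (hfA : 0 < fr A) (hfC : 0 < fr C) :
    (A * A * (C * C * C)).trace - (A * (C * C) * (A * C)).trace ≤
      nf A ^ 2 * nf C ^ 2 * (aa A C * ((1 - aa A C) * nf C)) +
        (9 * (nf C ^ 3 * √(dfc A)) + 5 * (nf A ^ 2 * nf C * √(dfc C))) := by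
  have hq1 : 0 < nf A := Real.sqrt_pos.2 hfA
  have hq2 : 0 < nf C := Real.sqrt_pos.2 hfC
  have h1 := drift_top hA hC hfA hfC
  have hi := aa_mul hq1 hq2
  have d1 := sq_dfc_le (A := A)
  have d2 := sq_dfc_le (A := C)
  have n1 := Real.sqrt_nonneg (dfc A)
  have n2 := Real.sqrt_nonneg (dfc C)
  have hip := ip_nonneg (psd_of hA) (psd_of hC)
  have hip1 := (le_abs_self _).trans (ip_le_nf A C)
  obtain ⟨a, ha⟩ : ∃ a, a = aa A C := ⟨_, rfl⟩
  obtain ⟨q1, hq1'⟩ : ∃ q, q = nf A := ⟨_, rfl⟩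
  obtain ⟨q2, hq2'⟩ : ∃ q, q = nf C := ⟨_, rfl⟩
  obtain ⟨x, hx⟩ : ∃ x, x = √(dfc A) := ⟨_, rfl⟩
  obtain ⟨y, hy⟩ : ∃ y, y = √(dfc C) := ⟨_, rfl⟩
  obtain ⟨p, hp⟩ : ∃ p, p = ip A C := ⟨_, rfl⟩
  rw [← ha, ← hq1', ← hq2', ← hp] at hi
  rw [← hp] at hip
  rw [← hp, ← hq1', ← hq2'] at hip1
  rw [← hq1', ← hx] at d1
  rw [← hq2', ← hy] at d2
  rw [← hx] at n1
  rw [← hy] at n2
  rw [← hq1'] at hq1
  rw [← hq2'] at hq2
  rw [← hq1', ← hq2', ← hx, ← hy, ← hp] at h1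
  rw [← ha, ← hq1', ← hq2', ← hx, ← hy]
  refine h1.trans ?_
  -- `q1 q2 ip - ip² = q1² q2² a (1 - a)`
  have e1 : q1 * q2 * p - p ^ 2 = q1 ^ 2 * q2 ^ 2 * (a * (1 - a)) := by rw [← hi]; ring
  have e2 : q1 * q2 * p - p ^ 2 ≤ q1 ^ 2 * q2 ^ 2 := by nlinarith [sq_nonneg p, mul_pos hq1 hq2]
  have t1 : (2 * (y / q2)) * (q1 * q2 * p - p ^ 2) ≤ 2 * (q1 ^ 2 * q2 * y) := by
    have h2 : 0 ≤ 2 * (y / q2) := by positivity
    refine (mul_le_mul_of_nonneg_left e2 h2).trans (le_of_eq ?_)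
    field_simp
  have t2 : (2 * (y / q2)) * (3 * (q2 ^ 2 * x)) ≤ 6 * (q2 ^ 3 * x) := by
    have h2 : (2 * (y / q2)) * (3 * (q2 ^ 2 * x)) = 6 * (q2 * x) * y := by
      field_simp
      ring
    rw [h2]
    have h3 : 0 ≤ 6 * (q2 * x) := by positivity
    calc 6 * (q2 * x) * y ≤ 6 * (q2 * x) * q2 ^ 2 := mul_le_mul_of_nonneg_left d2 h3
      _ = 6 * (q2 ^ 3 * x) := by ring
  have t3 : (2 * (y / q2)) * (q1 ^ 2 * y) ≤ 2 * (q1 ^ 2 * q2 * y) := by
    have h2 : (2 * (y / q2)) * (q1 ^ 2 * y) = 2 * (q1 ^ 2 * y / q2) * y := by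
      field_simp
    rw [h2]
    have h3 : 0 ≤ 2 * (q1 ^ 2 * y / q2) := by positivity
    calc 2 * (q1 ^ 2 * y / q2) * y ≤ 2 * (q1 ^ 2 * y / q2) * q2 ^ 2 :=
          mul_le_mul_of_nonneg_left d2 h3
      _ = 2 * (q1 ^ 2 * q2 * y) := by
          field_simp
  have e3 : (q2 + 2 * (y / q2)) * (q1 * q2 * p - p ^ 2 + (3 * (q2 ^ 2 * x) + q1 ^ 2 * y)) =
      q1 ^ 2 * q2 ^ 2 * (a * ((1 - a) * q2)) + (3 * (q2 ^ 3 * x) + q1 ^ 2 * q2 * y) +
        ((2 * (y / q2)) * (q1 * q2 * p - p ^ 2) + (2 * (y / q2)) * (3 * (q2 ^ 2 * x)) +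
          (2 * (y / q2)) * (q1 ^ 2 * y)) := by
    rw [e1]
    ring
  rw [e3]
  nlinarith

/-- the drift form in 785's letter -/
theorem K3_top' [Nonempty m] {n : ℕ} (hn : 0 < n) {A C : Matrix (Fin n) (Fin n) ℝ}
    (hA : A.PosSemidef) (hC : C.PosSemidef) (hfA : 0 < fr A) (hfC : 0 < fr C) :
    K3 A C ≤ nf A ^ 2 * nf C ^ 2 * (aa A C * ((1 - aa A C) * nf C)) +
        (9 * (nf C ^ 3 * √(dfc A)) + 5 * (nf A ^ 2 * nf C * √(dfc C))) := by
  haveI : Nonempty (Fin n) := ⟨⟨0, hn⟩⟩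
  have h := K3_top hA hC hfA hfC
  rw [K3_eq (sym_of hA) (sym_of hC)]
  have e1 : (A * (A * (C * (C * C)))).trace = (A * A * (C * C * C)).trace := by
    simp only [Matrix.mul_assoc]
  have e2 : (A * (C * (C * (A * C)))).trace = (A * (C * C) * (A * C)).trace := by
    simp only [Matrix.mul_assoc]
  rw [e1, e2]
  exact h

/-- the main term from below -/
theorem q4_low {A C : Matrix m m ℝ} (hA : A.PosSemidef) (hC : C.PosSemidef)
    (hfA : 0 < fr A) (hfC : 0 < fr C) :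
    nf A ^ 2 * nf C ^ 2 * aa A C - (nf C ^ 2 * √(dfc A) + nf A ^ 2 * √(dfc C)) ≤
      (A * (A * (C * C))).trace := by
  have hq1 : 0 < nf A := Real.sqrt_pos.2 hfA
  have hq2 : 0 < nf C := Real.sqrt_pos.2 hfC
  have h1 := fr_mul_ge (psd_of hA) (psd_of hC)
  have e1 : (A * (A * (C * C))).trace = (A * A * (C * C)).trace := by
    simp only [Matrix.mul_assoc]
  rw [e1, tr_AACC (sym_of hA) (sym_of hC)]
  have e2 : nf A ^ 2 * nf C ^ 2 * aa A C = nf A * nf C * ip A C := by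
    rw [← aa_mul hq1 hq2]; ring
  rw [e2]
  exact h1

end mat

section glue

variable {n : ℕ} {φ : (K4 (Pair n) → ℝ) → ℝ}

lemma eg_nf {A : (K4 (Pair n) → ℝ) → Matrix (Fin n) (Fin n) ℝ}
    (hA : ∀ i j, EG fun w => A w i j) : EG fun w => nf (A w) :=
  H191.eg_sqrt (EG.sum _ fun i _ => EG.sum _ fun j _ => (hA i j).pow 2)

lemma eg_mm' {A C : (K4 (Pair n) → ℝ) → Matrix (Fin n) (Fin n) ℝ}
    (hA : ∀ i j, EG fun w => A w i j) (hC : ∀ i j, EG fun w => C w i j) (i j : Fin n) :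
    EG fun w => (A w * C w) i j := by
  simp only [Matrix.mul_apply]
  exact EG.sum _ fun l _ => (hA i l).mul (hC l j)

lemma eg_frm {A : (K4 (Pair n) → ℝ) → Matrix (Fin n) (Fin n) ℝ}
    (hA : ∀ i j, EG fun w => A w i j) : EG fun w => fr (A w) :=
  EG.sum _ fun i _ => EG.sum _ fun j _ => (hA i j).pow 2

lemma eg_dfc {A : (K4 (Pair n) → ℝ) → Matrix (Fin n) (Fin n) ℝ}
    (hA : ∀ i j, EG fun w => A w i j) : EG fun w => √(dfc (A w)) :=
  H191.eg_sqrt (((eg_frm hA).pow 2).sub (eg_frm (eg_mm' hA hA)))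

lemma eg_ip {A C : (K4 (Pair n) → ℝ) → Matrix (Fin n) (Fin n) ℝ}
    (hA : ∀ i j, EG fun w => A w i j) (hC : ∀ i j, EG fun w => C w i j) :
    EG fun w => ip (A w) (C w) :=
  EG.sum _ fun i _ => EG.sum _ fun j _ => (hA i j).mul (hC i j)

lemma eg_aa {A C : (K4 (Pair n) → ℝ) → Matrix (Fin n) (Fin n) ℝ}
    (hA : ∀ i j, EG fun w => A w i j) (hC : ∀ i j, EG fun w => C w i j) :
    EG fun w => aa (A w) (C w) :=
  EG.of_bdd ((eg_ip hA hC).meas.div ((eg_nf hA).meas.mul (eg_nf hC).meas)) fun w =>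
    aa_abs (A w) (C w)

lemma eg_gk {κ : ℝ} (hκ : 0 < κ) {A C : (K4 (Pair n) → ℝ) → Matrix (Fin n) (Fin n) ℝ}
    (hA : ∀ i j, EG fun w => A w i j) (hC : ∀ i j, EG fun w => C w i j) :
    EG fun w => gk κ (A w) (C w) := by
  refine EG.of_bdd (C := 1 / κ) ?_ fun w => ?_
  · exact measurable_const.div ((measurable_const.sub (eg_aa hA hC).meas).add measurable_const)
  · rw [abs_of_nonneg (gk_nonneg hκ _ _)]
    exact gk_le hκ _ _

/-- **The glue.** -/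
theorem f2_glue (hn : 0 < n) (h : EG φ) (h0 : ∀ w, 0 ≤ φ w)
    {A C : (K4 (Pair n) → ℝ) → Matrix (Fin n) (Fin n) ℝ}
    (hA : ∀ i j, EG fun w => A w i j) (hC : ∀ i j, EG fun w => C w i j)
    (pA : ∀ w, (A w).PosSemidef) (pC : ∀ w, (C w).PosSemidef)
    (fA : ∀ w, 0 < fr (A w)) (fC : ∀ w, 0 < fr (C w))
    {w1 N : (K4 (Pair n) → ℝ) → ℝ} (hw : EG w1) (hw0 : ∀ w, 0 ≤ w1 w) (hN : EG N)
    (hN0 : ∀ w, 0 ≤ N w) {κ τ v K0 eK SL eL Dd E1 : ℝ} (hκ : 0 < κ) (hτ : 0 ≤ τ) (hv : 0 ≤ v)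
    (hκK : 2 * κ * K0 ≤ τ)
    (hm : Im φ (fun w => w1 w * N w * nf (A w) ^ 2 * ip (A w) (C w)) =
      Im φ (fun w => w1 w * N w * nf (A w) ^ 2 * nf (A w) ^ 2))
    (hK : Im φ (fun w => w1 w * (nf (A w) ^ 2 * nf (C w) ^ 2) *
        (aa (A w) (C w) * (gk κ (A w) (C w) * N w))) ≤
      K0 * Im φ (fun w => w1 w * (nf (A w) ^ 2 * nf (C w) ^ 2) *
        (aa (A w) (C w) * gk κ (A w) (C w))) + eK)
    (hL : Im φ (fun w => w1 w * (nf (A w) ^ 2 * nf (C w) ^ 2) *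
        (aa (A w) (C w) * (gk κ (A w) (C w) * (1 - aa (A w) (C w) ^ 2) * N w))) ≤ SL + eL)
    (hI : SL + τ * (Im φ (fun w => w1 w * gk κ (A w) (C w) *
          (A w * (A w * (C w * C w))).trace) -
        2 * Im φ (fun w => w1 w * gk κ (A w) (C w) * (A w * (A w * C w)).trace)) ≤
      Dd + v * Im φ (fun w => w1 w * gk κ (A w) (C w) * K3 (A w) (C w)) + E1) :
    2 * Im φ (fun w => w1 w * N w * nf (A w) ^ 4) ≤
      v * Im φ (fun w => w1 w * (nf (A w) * nf (C w) ^ 2 * ip (A w) (C w))) +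
      (Dd + E1 + eL +
        τ * (2 * Im φ (fun w => w1 w * gk κ (A w) (C w) * (A w * (A w * C w)).trace) +
          Im φ (fun w => w1 w * gk κ (A w) (C w) *
            (nf (C w) ^ 2 * √(dfc (A w)) + nf (A w) ^ 2 * √(dfc (C w))))) +
        v * Im φ (fun w => w1 w * gk κ (A w) (C w) *
          (9 * (nf (C w) ^ 3 * √(dfc (A w))) + 5 * (nf (A w) ^ 2 * nf (C w) * √(dfc (C w)))))) +
      2 * κ * eK := by
  have eg := eg_gk hκ hA hC
  have ea := eg_aa hA hC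
  have e1 := eg_nf hA
  have e2 := eg_nf hC
  have ed1 := eg_dfc hA
  have ed2 := eg_dfc hC
  have eχ : EG fun w => w1 w * gk κ (A w) (C w) := hw.mul eg
  have q10 : ∀ w, 0 < nf (A w) := fun w => Real.sqrt_pos.2 (fA w)
  have q20 : ∀ w, 0 < nf (C w) := fun w => Real.sqrt_pos.2 (fC w)
  have χ0 : ∀ w, 0 ≤ w1 w * gk κ (A w) (C w) := fun w => mul_nonneg (hw0 w) (gk_nonneg hκ _ _)
  have eT4 : EG fun w => (A w * (A w * (C w * C w))).trace := by
    simp only [Matrix.trace, Matrix.diag_apply]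
    exact EG.sum _ fun i _ => eg_mm' hA (eg_mm' hA (eg_mm' hC hC)) i i
  have eK3 : EG fun w => K3 (A w) (C w) := by
    have e : (fun w => K3 (A w) (C w)) = fun w =>
        ((A w * (A w * (C w * (C w * C w)))).trace -
          (A w * (C w * (C w * (A w * C w)))).trace) := funext fun w =>
      K3_eq (sym_of (pA w)) (sym_of (pC w))
    rw [e]
    simp only [Matrix.trace, Matrix.diag_apply]
    exact (EG.sum _ fun i _ => eg_mm' hA (eg_mm' hA (eg_mm' hC (eg_mm' hC hC))) i i).sub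
      (EG.sum _ fun i _ => eg_mm' hA (eg_mm' hC (eg_mm' hC (eg_mm' hA hC))) i i)
  have eD1 : EG fun w => nf (C w) ^ 2 * √(dfc (A w)) + nf (A w) ^ 2 * √(dfc (C w)) :=
    ((e2.pow 2).mul ed1).add ((e1.pow 2).mul ed2)
  have eD2 : EG fun w => 9 * (nf (C w) ^ 3 * √(dfc (A w))) +
      5 * (nf (A w) ^ 2 * nf (C w) * √(dfc (C w))) :=
    (((e2.pow 3).mul ed1).const_mul 9).add ((((e1.pow 2).mul e2).mul ed2).const_mul 5)
  -- the main term of the ratio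
  have s1 : Im φ (fun w => w1 w * (nf (A w) ^ 2 * nf (C w) ^ 2) *
        (aa (A w) (C w) * gk κ (A w) (C w))) ≤
      Im φ (fun w => w1 w * gk κ (A w) (C w) * (A w * (A w * (C w * C w))).trace) +
        Im φ (fun w => w1 w * gk κ (A w) (C w) *
            (nf (C w) ^ 2 * √(dfc (A w)) + nf (A w) ^ 2 * √(dfc (C w)))) := by
    rw [← Im_add h (eχ.mul eT4) (eχ.mul eD1)]
    refine Im_mono' h h0 ((hw.mul ((e1.pow 2).mul (e2.pow 2))).mul (ea.mul eg))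
      ((eχ.mul eT4).add (eχ.mul eD1)) fun w => ?_
    have h3 := mul_le_mul_of_nonneg_left (q4_low (pA w) (pC w) (fA w) (fC w)) (χ0 w)
    rw [mul_sub] at h3
    have h4 : w1 w * (nf (A w) ^ 2 * nf (C w) ^ 2) * (aa (A w) (C w) * gk κ (A w) (C w)) =
        w1 w * gk κ (A w) (C w) * (nf (A w) ^ 2 * nf (C w) ^ 2 * aa (A w) (C w)) := by ring
    rw [h4]
    linarith
  -- the drift
  have s2 : Im φ (fun w => w1 w * gk κ (A w) (C w) * K3 (A w) (C w)) ≤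
      Im φ (fun w => w1 w * (nf (A w) ^ 2 * nf (C w) ^ 2) *
        (aa (A w) (C w) * (gk κ (A w) (C w) * (1 - aa (A w) (C w)) * nf (C w)))) +
      Im φ (fun w => w1 w * gk κ (A w) (C w) *
          (9 * (nf (C w) ^ 3 * √(dfc (A w))) +
            5 * (nf (A w) ^ 2 * nf (C w) * √(dfc (C w))))) := by
    have g5 : EG fun w => w1 w * (nf (A w) ^ 2 * nf (C w) ^ 2) *
        (aa (A w) (C w) * (gk κ (A w) (C w) * (1 - aa (A w) (C w)) * nf (C w))) :=
      (hw.mul ((e1.pow 2).mul (e2.pow 2))).mul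
        (ea.mul ((eg.mul ((EG.const 1).sub ea)).mul e2))
    rw [← Im_add h g5 (eχ.mul eD2)]
    refine Im_mono' h h0 (eχ.mul eK3) (g5.add (eχ.mul eD2)) fun w => ?_
    haveI : Nonempty (Fin n) := ⟨⟨0, hn⟩⟩
    have h3 := mul_le_mul_of_nonneg_left (K3_top' (m := Fin n) hn (pA w) (pC w) (fA w) (fC w))
      (χ0 w)
    refine h3.trans (le_of_eq ?_)
    ring
  have s3 := mul_le_mul_of_nonneg_left s1 hτ
  have s4 := mul_le_mul_of_nonneg_left s2 hv
  refine f2_alg2 h h0 hw hw0 e1 q10 e2 q20 (eg_ip hA hC)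
    (fun w => ip_nonneg (psd_of (pA w)) (psd_of (pC w)))
    (fun w => (le_abs_self _).trans (ip_le_nf _ _)) ea (fun w => aa_mul (q10 w) (q20 w)) hN hN0
    eg hκ (fun w => gk_mul hκ _ _) hv hκK hm hK ?_
  nlinarith

end glue

end Vale.Agent.P146.H561
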